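import Mathlib

/-!
# Pattern systems: strongly irreducible systems of colourings of a group

A system says which colourings (with three colours, on a sequence of coordinates) of a finite set
are allowed. Two operations: a new coordinate coloured properly along an edge set, and a block
that must occur near every point.
-/

namespace Vale.Agent.P193.Action

variable {K : Type} [Group K] [DecidableEq K]

/-- A colouring of the group with countably many coordinates. -/
abbrev Config (K : Type) : Type := K → ℕ → Fin 3

/-- Translate a colouring. -/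
def shift (h : K) (p : Config K) : Config K := fun v => p (h⁻¹ * v)

/-- No difference of a point of `A` and a point of `B` lies in `G`. -/
def Apart (G A B : Finset K) : Prop := ∀ a ∈ A, ∀ b ∈ B, a⁻¹ * b ∉ G

/-- Two colourings agree on a finite set at the first `n` coordinates. -/
def Agree (n : ℕ) (A : Finset K) (p q : Config K) : Prop := ∀ v ∈ A, ∀ i < n, p v i = q v i

/-- A strongly irreducible family of allowed patterns in `n` coordinates. -/
structure Sys (K : Type) [Group K] [DecidableEq K] (n : ℕ) where
  /-- The allowed patterns. -/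
  allowed : Finset K → Config K → Prop
  /-- Sets with no difference in the gap can be filled independently. -/
  gap : Finset K
  one_mem : (1 : K) ∈ gap
  inv_mem : ∀ g ∈ gap, g⁻¹ ∈ gap
  empty : ∀ p, allowed ∅ p
  congr : ∀ {A p q}, Agree n A p q → allowed A p → allowed A q
  mono : ∀ {A A' p}, A' ⊆ A → allowed A p → allowed A' p
  translate : ∀ {A p} (h : K), allowed A p → allowed (A.image (h * ·)) (shift h p)
  glue : ∀ {A B p}, allowed A p → allowed B p → Apart gap A B → allowed (A ∪ B) p
  extend : ∀ {A p}, allowed A p → ∀ A' : Finset K,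
    ∃ q, Agree n A q p ∧ allowed (A ∪ A') q

omit [Group K] [DecidableEq K] in
lemma Agree.symm {n : ℕ} {A : Finset K} {p q : Config K} (h : Agree n A p q) : Agree n A q p :=
  fun v hv i hi => (h v hv i hi).symm

omit [Group K] [DecidableEq K] in
lemma Agree.mono {n m : ℕ} {A B : Finset K} {p q : Config K} (h : Agree n A p q) (hm : m ≤ n)
    (hB : B ⊆ A) : Agree m B p q := fun v hv i hi => h v (hB hv) i (hi.trans_le hm)

omit [Group K] [DecidableEq K] in
lemma Agree.trans {n : ℕ} {A : Finset K} {p q r : Config K} (h : Agree n A p q)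
    (h' : Agree n A q r) : Agree n A p r := fun v hv i hi => (h v hv i hi).trans (h' v hv i hi)

omit [DecidableEq K] in
lemma Apart.disjoint {G A B : Finset K} (h1 : (1 : K) ∈ G) (h : Apart G A B) {x : K}
    (hA : x ∈ A) : x ∉ B := fun hB => h x hA x hB (by rwa [inv_mul_cancel])

/-- The system with no coordinates. -/
def Sys.trivial (K : Type) [Group K] [DecidableEq K] : Sys K 0 where
  allowed _ _ := True
  gap := {1}
  one_mem := Finset.mem_singleton_self 1
  inv_mem g hg := by simp_all
  empty _ := True.intro
  congr _ h := h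
  mono _ h := h
  translate _ h := h
  glue h _ _ := h
  extend {_ p} _ _ := ⟨p, fun _ _ _ _ => rfl, True.intro⟩

variable {n : ℕ} (σ : Sys K n)

/-- Glue two patterns given by different colourings. -/
lemma Sys.glue_two {A B : Finset K} {p q : Config K} (hA : σ.allowed A p) (hB : σ.allowed B q)
    (hap : Apart σ.gap A B) :
    ∃ r : Config K, (∀ x ∈ A, r x = p x) ∧ (∀ x ∈ B, r x = q x) ∧ σ.allowed (A ∪ B) r := by
  refine ⟨fun x => if x ∈ A then p x else q x, fun x hx => if_pos hx,
    fun x hx => if_neg fun h => hap.disjoint σ.one_mem h hx, σ.glue (σ.congr ?_ hA) (σ.congr ?_ hB) hap⟩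
  · intro x hx i _
    simp [hx]
  · intro x hx i _
    simp [show x ∉ A from fun h => hap.disjoint σ.one_mem h hx]

/-- Properness of one coordinate along the edges `v — v g`. -/
def Proper (g : K) (m : ℕ) (A : Finset K) (p : Config K) : Prop :=
  g ≠ 1 → ∀ v ∈ A, v * g ∈ A → p v m ≠ p (v * g) m

lemma exists_third (a b : Fin 3) : ∃ c : Fin 3, c ≠ a ∧ c ≠ b := by
  revert a b
  decide

lemma Proper.exists_extend {g : K} {m : ℕ} {A : Finset K} {p : Config K} (h : Proper g m A p)
    (A' : Finset K) :
    ∃ q : Config K, (∀ v i, i ≠ m → q v i = p v i) ∧ (∀ v ∈ A, q v = p v) ∧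
      Proper g m (A ∪ A') q := by
  induction A' using Finset.induction_on with
  | empty => exact ⟨p, fun _ _ _ => rfl, fun _ _ => rfl, by simpa using h⟩
  | insert x A' _ ih =>
    obtain ⟨q, hq1, hq2, hq3⟩ := ih
    by_cases hx : x ∈ A ∪ A'
    · refine ⟨q, hq1, hq2, ?_⟩
      rwa [Finset.union_insert, Finset.insert_eq_of_mem hx]
    obtain ⟨c, hc1, hc2⟩ := exists_third (q (x * g) m) (q (x * g⁻¹) m)
    refine ⟨fun v i => if v = x ∧ i = m then c else q v i, fun v i hi => by simp [hi, hq1 v i hi],
      fun v hv => funext fun i => ?_, fun hg v hv hvg => ?_⟩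
    · have hvx : v ≠ x := fun he => hx (Finset.mem_union_left _ (he ▸ hv))
      simp [hvx, hq2 v hv]
    · simp only [Finset.union_insert, Finset.mem_insert] at hv hvg
      have hne : v * g ≠ v := fun he => hg (mul_left_cancel (he.trans (mul_one v).symm))
      by_cases h1 : v = x
      · subst h1
        simpa [hne] using hc1
      · by_cases h2 : v * g = x
        · have e : x * g⁻¹ = v := by rw [← h2, mul_inv_cancel_right]
          rw [e] at hc2
          simpa [h1, h2] using hc2.symm
        · simpa [h1, h2] using
            hq3 hg v (hv.resolve_left h1) (hvg.resolve_left h2)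

/-- Add a coordinate coloured properly along `g`. -/
def Sys.addColour (g : K) : Sys K (n + 1) where
  allowed A p := σ.allowed A p ∧ Proper g n A p
  gap := insert g (insert g⁻¹ σ.gap)
  one_mem := by simp [σ.one_mem]
  inv_mem x hx := by
    simp only [Finset.mem_insert] at hx ⊢
    rcases hx with rfl | rfl | hx
    · exact Or.inr (Or.inl rfl)
    · exact Or.inl (inv_inv g)
    · exact Or.inr (Or.inr (σ.inv_mem x hx))
  empty p := ⟨σ.empty p, fun _ v hv => absurd hv (Finset.notMem_empty v)⟩
  congr {A p q} h hp := ⟨σ.congr (h.mono (Nat.le_succ n) subset_rfl) hp.1, fun hg v hv hvg => by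
    rw [← h v hv n (Nat.lt_succ_self n), ← h _ hvg n (Nat.lt_succ_self n)]
    exact hp.2 hg v hv hvg⟩
  mono {A A' p} hA h := ⟨σ.mono hA h.1, fun hg v hv hvg => h.2 hg v (hA hv) (hA hvg)⟩
  translate {A p} h hp := ⟨σ.translate h hp.1, fun hg v hv hvg => by
    obtain ⟨a, ha, rfl⟩ := Finset.mem_image.1 hv
    obtain ⟨b, hb, hbe⟩ := Finset.mem_image.1 hvg
    have e : b = a * g := mul_left_cancel (hbe.trans (mul_assoc h a g))
    subst e
    simpa [shift, mul_assoc] using hp.2 hg a ha hb⟩
  glue {A B p} hA hB hap := by
    refine ⟨σ.glue hA.1 hB.1 fun a ha b hb h => hap a ha b hb (by simp [h]), fun hg v hv hvg => ?_⟩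
    rcases Finset.mem_union.1 hv with hv | hv <;> rcases Finset.mem_union.1 hvg with hw | hw
    · exact hA.2 hg v hv hw
    · exact absurd (by simp) (hap v hv _ hw)
    · exact absurd (by simp) (hap _ hw v hv)
    · exact hB.2 hg v hv hw
  extend {A p} hp A' := by
    obtain ⟨q, hq, hqa⟩ := σ.extend hp.1 A'
    have hpr : Proper g n A (fun v i => if i = n then p v i else q v i) := fun hg v hv hvg => by
      simpa using hp.2 hg v hv hvg
    obtain ⟨r, hr1, hr2, hr3⟩ := hpr.exists_extend A'
    refine ⟨r, fun v hv i hi => ?_, σ.congr (fun v _ i hi => ?_) hqa, hr3⟩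
    · rw [hr2 v hv]
      by_cases h : i = n
      · simp [h]
      · simp [h, hq v hv i (by omega)]
    · simp [hr1 v i hi.ne, hi.ne]

end Vale.Agent.P193.Action
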