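import Mathlib
import Vale.Agent.P193.Action.System

/-!
# Adding a block that occurs near every point

Centres are separated by `D` and every point of the thickening `A * c` is within `D` of a centre;
a new centre is never in `A * c`, so extension and gluing stay finite.
-/

open scoped Pointwise

namespace Vale.Agent.P193.Action

variable {K : Type} [Group K] [DecidableEq K] {n : ℕ}

/-- The exclusion thickening. -/
def cSet (G S : Finset K) : Finset K := G * S⁻¹

/-- The separation of centres. -/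
def dSet (G S : Finset K) : Finset K := S * G * S⁻¹

/-- Where the centres relevant to a set lie. -/
def eSet (G S : Finset K) : Finset K := cSet G S * dSet G S

/-- The reach of a set. -/
def tSet (G S : Finset K) : Finset K := insert 1 (eSet G S ∪ eSet G S * S)

/-- The gap after adding a block. -/
def gapSet (G S : Finset K) : Finset K := tSet G S * (G ∪ dSet G S) * (tSet G S)⁻¹

variable (σ : Sys K n) (S : Finset K) (P : Config K)

/-- The centres `C` with the filling `q` witness that `p` is allowed on `A`. -/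
structure Witness (A : Finset K) (p : Config K) (C : Finset K) (q : Config K) : Prop where
  sub : C ⊆ A * eSet σ.gap S
  sep : ∀ v ∈ C, ∀ w ∈ C, v ≠ w → v⁻¹ * w ∉ dSet σ.gap S
  cover : ∀ u ∈ A * cSet σ.gap S, ∃ v ∈ C, v⁻¹ * u ∈ dSet σ.gap S
  agree : Agree n A q p
  inner : σ.allowed (A ∪ C * S) q
  block : ∀ v ∈ C, ∀ s ∈ S, ∀ i < n, q (v * s) i = P s i

/-- Allowed once the block is required. -/
def BlockAllowed (A : Finset K) (p : Config K) : Prop := ∃ C q, Witness σ S P A p C q

variable {σ S P}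

lemma inv_mem_dSet {x : K} (hx : x ∈ dSet σ.gap S) : x⁻¹ ∈ dSet σ.gap S := by
  simp only [dSet, Finset.mem_mul, Finset.mem_inv] at hx ⊢
  obtain ⟨_, ⟨s, hs, g, hg, rfl⟩, _, ⟨t, ht, rfl⟩, rfl⟩ := hx
  exact ⟨t * g⁻¹, ⟨t, ht, g⁻¹, σ.inv_mem g hg, rfl⟩, s⁻¹, ⟨s, hs, rfl⟩,
    by simp [mul_assoc]⟩

variable (h1 : (1 : K) ∈ S)
include h1

lemma one_mem_dSet : (1 : K) ∈ dSet σ.gap S := by
  simp only [dSet, Finset.mem_mul, Finset.mem_inv]
  exact ⟨1, ⟨1, h1, 1, σ.one_mem, mul_one 1⟩, 1, ⟨1, h1, inv_one⟩, mul_one 1⟩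

lemma one_mem_cSet : (1 : K) ∈ cSet σ.gap S := by
  simp only [cSet, Finset.mem_mul, Finset.mem_inv]
  exact ⟨1, σ.one_mem, 1, ⟨1, h1, inv_one⟩, mul_one 1⟩

omit h1 in
lemma mem_gapSet {G : Finset K} {x y z : K} (hx : x ∈ tSet G S) (hy : y ∈ G ∪ dSet G S)
    (hz : z ∈ tSet G S) : x * y * z⁻¹ ∈ gapSet G S :=
  Finset.mul_mem_mul (Finset.mul_mem_mul hx hy) (Finset.inv_mem_inv hz)

omit h1 in
lemma one_mem_tSet {G : Finset K} : (1 : K) ∈ tSet G S := Finset.mem_insert_self 1 _

omit h1 in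
lemma mem_reach {A C : Finset K} {p q : Config K} (w : Witness σ S P A p C q) {x : K}
    (hx : x ∈ A ∪ C * S) : ∃ a ∈ A, ∃ t ∈ tSet σ.gap S, a * t = x := by
  rcases Finset.mem_union.1 hx with hx | hx
  · exact ⟨x, hx, 1, one_mem_tSet, mul_one x⟩
  · obtain ⟨v, hv, s, hs, rfl⟩ := Finset.mem_mul.1 hx
    obtain ⟨a, ha, f, hf, rfl⟩ := Finset.mem_mul.1 (w.sub hv)
    exact ⟨a, ha, f * s, Finset.mem_insert_of_mem
      (Finset.mem_union_right _ (Finset.mul_mem_mul hf hs)), (mul_assoc a f s).symm⟩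

omit h1 in
lemma Witness.mono {A A' C : Finset K} {p q : Config K} (w : Witness σ S P A p C q)
    (hA : A' ⊆ A) : BlockAllowed σ S P A' p := by
  refine ⟨C.filter (· ∈ A' * eSet σ.gap S), q,
    ⟨fun v hv => (Finset.mem_filter.1 hv).2,
      fun v hv u hu h => w.sep v (Finset.mem_filter.1 hv).1 u (Finset.mem_filter.1 hu).1 h,
      fun u hu => ?_, w.agree.mono le_rfl hA, σ.mono ?_ w.inner,
      fun v hv => w.block v (Finset.mem_filter.1 hv).1⟩⟩
  · obtain ⟨v, hv, hd⟩ := w.cover u (Finset.mul_subset_mul_right hA hu)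
    refine ⟨v, Finset.mem_filter.2 ⟨hv, ?_⟩, hd⟩
    obtain ⟨a, ha, f, hf, rfl⟩ := Finset.mem_mul.1 hu
    exact Finset.mem_mul.2 ⟨a, ha, f * (v⁻¹ * (a * f))⁻¹,
      Finset.mul_mem_mul hf (inv_mem_dSet hd), by group⟩
  · exact Finset.union_subset_union hA (Finset.mul_subset_mul_right (Finset.filter_subset _ C))

omit h1 in
lemma exists_blocks (hP : σ.allowed S P) (N : Finset K)
    (hN : ∀ v ∈ N, ∀ w ∈ N, v ≠ w → v⁻¹ * w ∉ dSet σ.gap S) :
    ∃ r : Config K, σ.allowed (N * S) r ∧ ∀ v ∈ N, ∀ s ∈ S, r (v * s) = P s := by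
  induction N using Finset.induction_on with
  | empty => exact ⟨P, by simpa using σ.empty P, fun v hv => absurd hv (Finset.notMem_empty v)⟩
  | insert v N hv ih =>
    obtain ⟨r, hr, hrb⟩ := ih fun a ha b hb =>
      hN a (Finset.mem_insert_of_mem ha) b (Finset.mem_insert_of_mem hb)
    have hap : Apart σ.gap (S.image (v * ·)) (N * S) := by
      intro a ha b hb hab
      obtain ⟨s, hs, rfl⟩ := Finset.mem_image.1 ha
      obtain ⟨w, hw, t, ht, rfl⟩ := Finset.mem_mul.1 hb
      refine hN v (Finset.mem_insert_self v N) w (Finset.mem_insert_of_mem hw)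
        (fun e => hv (e ▸ hw)) ?_
      exact Finset.mem_mul.2 ⟨s * ((v * s)⁻¹ * (w * t)), Finset.mul_mem_mul hs hab, t⁻¹,
        Finset.inv_mem_inv ht, by group⟩
    obtain ⟨q, hq1, hq2, hq⟩ := σ.glue_two (σ.translate v hP) hr hap
    refine ⟨q, ?_, fun w hw s hs => ?_⟩
    · have e : insert v N * S = S.image (v * ·) ∪ N * S := by
        rw [Finset.insert_eq, Finset.union_mul, Finset.singleton_mul]
        rfl
      rw [e]
      exact hq
    · rcases Finset.mem_insert.1 hw with rfl | hw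
      · rw [hq1 _ (Finset.mem_image.2 ⟨s, hs, rfl⟩)]
        simp [shift]
      · rw [hq2 _ (Finset.mul_mem_mul hw hs)]
        exact hrb w hw s hs

lemma Witness.extend (hP : σ.allowed S P) {A C : Finset K} {p q : Config K}
    (w : Witness σ S P A p C q) (A' : Finset K) :
    ∃ q', Agree n A q' p ∧ BlockAllowed σ S P (A ∪ A') q' := by
  classical
  set D := dSet σ.gap S
  set X := (A ∪ A') * cSet σ.gap S
  set good := ((C ∪ X).powerset.filter
    fun C' => C ⊆ C' ∧ ∀ v ∈ C', ∀ u ∈ C', v ≠ u → v⁻¹ * u ∉ D)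
  have hC : C ∈ good := Finset.mem_filter.2
    ⟨Finset.mem_powerset.2 Finset.subset_union_left, subset_rfl, w.sep⟩
  obtain ⟨C', hC', hmax⟩ := good.exists_max_image Finset.card ⟨C, hC⟩
  obtain ⟨hsub, hCC, hsep⟩ : C' ⊆ C ∪ X ∧ C ⊆ C' ∧ ∀ v ∈ C', ∀ u ∈ C', v ≠ u → v⁻¹ * u ∉ D := by
    rw [Finset.mem_filter, Finset.mem_powerset] at hC'
    exact hC'
  have hcov : ∀ u ∈ X, ∃ v ∈ C', v⁻¹ * u ∈ D := by
    intro u hu
    by_contra hne
    push Not at hne
    have huC : u ∉ C' := fun h => hne u h (by simpa using one_mem_dSet h1)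
    have hins : insert u C' ∈ good := by
      refine Finset.mem_filter.2 ⟨Finset.mem_powerset.2 (Finset.insert_subset
        (Finset.mem_union_right _ hu) hsub), hCC.trans (Finset.subset_insert u C'), ?_⟩
      intro a ha b hb hab
      rcases Finset.mem_insert.1 ha with rfl | ha' <;> rcases Finset.mem_insert.1 hb with rfl | hb'
      · exact absurd rfl hab
      · intro h
        have := inv_mem_dSet h
        rw [mul_inv_rev, inv_inv] at this
        exact hne b hb' this
      · exact hne a ha'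
      · exact hsep a ha' b hb' hab
    have := hmax _ hins
    rw [Finset.card_insert_of_notMem huC] at this
    omega
  set N := C' \ C
  have hNA : ∀ v ∈ N, v ∉ A * cSet σ.gap S := by
    intro v hv h
    obtain ⟨hv', hvC⟩ := Finset.mem_sdiff.1 hv
    obtain ⟨u, hu, hd⟩ := w.cover v h
    exact hsep u (hCC hu) v hv' (fun e => hvC (e ▸ hu)) hd
  obtain ⟨r, hr, hrb⟩ := exists_blocks hP N fun v hv u hu =>
    hsep v (Finset.mem_sdiff.1 hv).1 u (Finset.mem_sdiff.1 hu).1
  have hap : Apart σ.gap (A ∪ C * S) (N * S) := by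
    intro a ha b hb hab
    obtain ⟨v, hv, s, hs, rfl⟩ := Finset.mem_mul.1 hb
    obtain ⟨hv', hvC⟩ := Finset.mem_sdiff.1 hv
    rcases Finset.mem_union.1 ha with ha | ha
    · exact hNA v hv (Finset.mem_mul.2 ⟨a, ha, a⁻¹ * (v * s) * s⁻¹,
        Finset.mul_mem_mul hab (Finset.inv_mem_inv hs), by group⟩)
    · obtain ⟨u, hu, t, ht, rfl⟩ := Finset.mem_mul.1 ha
      exact hsep u (hCC hu) v hv' (fun e => hvC (e ▸ hu)) (Finset.mem_mul.2
        ⟨t * ((u * t)⁻¹ * (v * s)), Finset.mul_mem_mul ht hab, s⁻¹, Finset.inv_mem_inv hs,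
          by group⟩)
  obtain ⟨f, hf1, hf2, hf⟩ := σ.glue_two w.inner hr hap
  obtain ⟨q', hq', hq'a⟩ := σ.extend hf (A ∪ A' ∪ C' * S)
  refine ⟨q', fun v hv i hi => ?_, C', q', ⟨fun v hv => ?_, hsep, hcov, fun _ _ _ _ => rfl,
    σ.mono Finset.subset_union_right hq'a, fun v hv s hs i hi => ?_⟩⟩
  · rw [hq' v (Finset.mem_union_left _ (Finset.mem_union_left _ hv)) i hi,
      hf1 v (Finset.mem_union_left _ hv)]
    exact w.agree v hv i hi
  · rcases Finset.mem_union.1 (hsub hv) with h | h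
    · exact Finset.mul_subset_mul_right Finset.subset_union_left (w.sub h)
    · obtain ⟨a, ha, g, hg, rfl⟩ := Finset.mem_mul.1 h
      exact Finset.mem_mul.2 ⟨a, ha, g * 1, Finset.mul_mem_mul hg (one_mem_dSet h1),
        by rw [mul_one]⟩
  · by_cases hvC : v ∈ C
    · have hm : v * s ∈ A ∪ C * S := Finset.mem_union_right _ (Finset.mul_mem_mul hvC hs)
      rw [hq' _ (Finset.mem_union_left _ hm) i hi, hf1 _ hm]
      exact w.block v hvC s hs i hi
    · have hm : v * s ∈ N * S := Finset.mul_mem_mul (Finset.mem_sdiff.2 ⟨hv, hvC⟩) hs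
      rw [hq' _ (Finset.mem_union_right _ hm) i hi, hf2 _ hm,
        hrb v (Finset.mem_sdiff.2 ⟨hv, hvC⟩) s hs]

variable (σ S P)

/-- Require the block `P` on `S` near every point. -/
def Sys.addBlock (hP : σ.allowed S P) : Sys K n where
  allowed := BlockAllowed σ S P
  gap := gapSet σ.gap S
  one_mem := by
    simpa using mem_gapSet (one_mem_tSet (G := σ.gap) (S := S))
      (Finset.mem_union_left _ σ.one_mem) one_mem_tSet
  inv_mem x hx := by
    simp only [gapSet, Finset.mem_mul, Finset.mem_inv] at hx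
    obtain ⟨_, ⟨t, ht, g, hg, rfl⟩, _, ⟨u, hu, rfl⟩, rfl⟩ := hx
    have hg' : g⁻¹ ∈ σ.gap ∪ dSet σ.gap S :=
      (Finset.mem_union.1 hg).elim (fun h => Finset.mem_union_left _ (σ.inv_mem g h))
        (fun h => Finset.mem_union_right _ (inv_mem_dSet h))
    simpa [mul_assoc] using mem_gapSet hu hg' ht
  empty p := ⟨∅, p, by simp, by simp, by simp, fun _ _ _ _ => rfl, by simpa using σ.empty p,
    fun v hv => absurd hv (Finset.notMem_empty v)⟩
  congr {A p q} h := fun ⟨C, r, w⟩ => ⟨C, r, { w with agree := w.agree.trans h }⟩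
  mono {A A' p} hA := fun ⟨_, _, w⟩ => w.mono hA
  translate {A p} h := fun ⟨C, r, w⟩ => by
    have e : ∀ X Y : Finset K, X.image (h * ·) * Y = (X * Y).image (h * ·) := fun X Y => by
      show (h • X) * Y = h • (X * Y)
      exact smul_mul_assoc h X Y
    refine ⟨C.image (h * ·), shift h r, ?_, ?_, ?_, ?_, ?_, ?_⟩
    · rw [e]
      exact Finset.image_subset_image w.sub
    · intro v hv u hu hne
      obtain ⟨v, hv', rfl⟩ := Finset.mem_image.1 hv
      obtain ⟨u, hu', rfl⟩ := Finset.mem_image.1 hu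
      simpa [mul_assoc] using w.sep v hv' u hu' fun he => hne (by rw [he])
    · intro u hu
      rw [e] at hu
      obtain ⟨u, hu', rfl⟩ := Finset.mem_image.1 hu
      obtain ⟨v, hv, hd⟩ := w.cover u hu'
      exact ⟨h * v, Finset.mem_image_of_mem _ hv, by simpa [mul_assoc] using hd⟩
    · intro v hv i hi
      obtain ⟨a, ha, rfl⟩ := Finset.mem_image.1 hv
      simpa [shift] using w.agree a ha i hi
    · rw [e, ← Finset.image_union]
      exact σ.translate h w.inner
    · intro v hv s hs i hi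
      obtain ⟨a, ha, rfl⟩ := Finset.mem_image.1 hv
      simpa [shift, mul_assoc] using w.block a ha s hs i hi
  glue {A B p} := fun ⟨C, r, w⟩ ⟨C2, r2, w2⟩ hap => by
    have hap' : Apart σ.gap (A ∪ C * S) (B ∪ C2 * S) := by
      intro x hx y hy hxy
      obtain ⟨a, ha, t, ht, rfl⟩ := mem_reach w hx
      obtain ⟨b, hb, u, hu, rfl⟩ := mem_reach w2 hy
      refine hap a ha b hb ?_
      have := mem_gapSet ht (Finset.mem_union_left (dSet σ.gap S) hxy) hu
      simpa [mul_assoc] using this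
    have hCD : ∀ v ∈ C, ∀ u ∈ C2, v⁻¹ * u ∉ dSet σ.gap S := by
      intro v hv u hu hd
      obtain ⟨a, ha, f, hf, rfl⟩ := Finset.mem_mul.1 (w.sub hv)
      obtain ⟨b, hb, g, hg, rfl⟩ := Finset.mem_mul.1 (w2.sub hu)
      refine hap a ha b hb ?_
      have := mem_gapSet (Finset.mem_insert_of_mem (Finset.mem_union_left _ hf))
        (Finset.mem_union_right σ.gap hd) (Finset.mem_insert_of_mem (Finset.mem_union_left _ hg))
      simpa [mul_assoc] using this
    obtain ⟨f, hf1, hf2, hf⟩ := σ.glue_two w.inner w2.inner hap'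
    refine ⟨C ∪ C2, f, ?_, ?_, ?_, ?_, σ.mono ?_ hf, ?_⟩
    · exact Finset.union_subset (w.sub.trans (Finset.mul_subset_mul_right Finset.subset_union_left))
        (w2.sub.trans (Finset.mul_subset_mul_right Finset.subset_union_right))
    · intro v hv u hu hne
      rcases Finset.mem_union.1 hv with hv | hv <;> rcases Finset.mem_union.1 hu with hu | hu
      · exact w.sep v hv u hu hne
      · exact hCD v hv u hu
      · intro h
        have := inv_mem_dSet h
        rw [mul_inv_rev, inv_inv] at this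
        exact hCD u hu v hv this
      · exact w2.sep v hv u hu hne
    · intro u hu
      rw [Finset.union_mul] at hu
      rcases Finset.mem_union.1 hu with hu | hu
      · obtain ⟨v, hv, hd⟩ := w.cover u hu
        exact ⟨v, Finset.mem_union_left _ hv, hd⟩
      · obtain ⟨v, hv, hd⟩ := w2.cover u hu
        exact ⟨v, Finset.mem_union_right _ hv, hd⟩
    · intro v hv i hi
      rcases Finset.mem_union.1 hv with hv | hv
      · rw [hf1 v (Finset.mem_union_left _ hv)]
        exact w.agree v hv i hi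
      · rw [hf2 v (Finset.mem_union_left _ hv)]
        exact w2.agree v hv i hi
    · rw [Finset.union_mul]
      intro x hx
      simp only [Finset.mem_union] at hx ⊢
      tauto
    · intro v hv s hs i hi
      rcases Finset.mem_union.1 hv with hv | hv
      · rw [hf1 _ (Finset.mem_union_right _ (Finset.mul_mem_mul hv hs))]
        exact w.block v hv s hs i hi
      · rw [hf2 _ (Finset.mem_union_right _ (Finset.mul_mem_mul hv hs))]
        exact w2.block v hv s hs i hi
  extend {A p} := fun ⟨_, _, w⟩ A' => w.extend h1 hP A'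

variable {σ S P}

/-- An allowed point is near a block. -/
lemma BlockAllowed.exists_block {A : Finset K} {p : Config K} (h : BlockAllowed σ S P A p)
    {a : K} (ha : a ∈ A) :
    ∃ v ∈ A * eSet σ.gap S, ∃ q, v⁻¹ * a ∈ dSet σ.gap S ∧ Agree n A q p ∧
      σ.allowed (A ∪ S.image (v * ·)) q ∧ ∀ s ∈ S, ∀ i < n, q (v * s) i = P s i := by
  obtain ⟨C, q, w⟩ := h
  obtain ⟨v, hv, hd⟩ := w.cover a
    (Finset.mem_mul.2 ⟨a, ha, 1, one_mem_cSet h1, mul_one a⟩)
  refine ⟨v, w.sub hv, q, hd, w.agree, σ.mono ?_ w.inner, w.block v hv⟩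
  refine Finset.union_subset_union subset_rfl fun x hx => ?_
  obtain ⟨s, hs, rfl⟩ := Finset.mem_image.1 hx
  exact Finset.mul_mem_mul hv hs

omit h1 in
/-- Requiring a block only shrinks a system. -/
lemma BlockAllowed.inner {A : Finset K} {p : Config K} (h : BlockAllowed σ S P A p) :
    σ.allowed A p := by
  obtain ⟨C, q, w⟩ := h
  exact σ.congr w.agree (σ.mono Finset.subset_union_left w.inner)

end Vale.Agent.P193.Action
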