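import Mathlib
import Vale.Agent.P193.Action.Block

/-!
# The limit of a tower of pattern systems: a free minimal closed invariant set
-/

open scoped Pointwise

namespace Vale.Agent.P193.Action

variable {K : Type} [Group K] [DecidableEq K]

/-- A tower: at every level a coordinate coloured along `g n` and a block that contains every
allowed pattern on `F n`; the `g n` meet every element but `1`, the `F n` exhaust the group. -/
structure Tower (K : Type) [Group K] [DecidableEq K] where
  /-- The systems. -/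
  sys : ∀ n, Sys K n
  /-- The colouring edges. -/
  g : ℕ → K
  /-- The supports of the blocks. -/
  S : ℕ → Finset K
  /-- The blocks. -/
  P : ℕ → Config K
  /-- The windows. -/
  F : ℕ → Finset K
  one_mem : ∀ n, (1 : K) ∈ S n
  block_allowed : ∀ n, ((sys n).addColour (g n)).allowed (S n) (P n)
  step : ∀ n A p, (sys (n + 1)).allowed A p ↔
    BlockAllowed ((sys n).addColour (g n)) (S n) (P n) A p
  full : ∀ n p, ((sys n).addColour (g n)).allowed (F n) p →
    ∃ h : K, ∀ x ∈ F n, h * x ∈ S n ∧ ∀ i ≤ n, P n (h * x) i = p x i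
  g_surj : ∀ h : K, h ≠ 1 → ∃ n, g n = h
  F_mono : ∀ {m n}, m ≤ n → F m ⊆ F n
  F_exhaust : ∀ x : K, ∃ n, x ∈ F n

namespace Tower

variable (T : Tower K)

/-- The limit set. -/
def Y : Set (Config K) := {y | ∀ n A, (T.sys n).allowed A y}

lemma allowed_of_le {m n : ℕ} (h : m ≤ n) {A : Finset K} {p : Config K}
    (hp : (T.sys n).allowed A p) : (T.sys m).allowed A p := by
  induction h with
  | refl => exact hp
  | step _ ih => exact ih ((T.step _ _ _).1 hp).inner.1

lemma addColour_of_mem {y : Config K} (hy : y ∈ T.Y) (n : ℕ) (A : Finset K) :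
    ((T.sys n).addColour (T.g n)).allowed A y :=
  ((T.step n A y).1 (hy (n + 1) A)).inner

omit [Group K] [DecidableEq K] in
private lemma isClosed_of_finite_dep {n : ℕ} {A : Finset K} {P : Config K → Prop}
    (h : ∀ {p q}, Agree n A p q → P p → P q) : IsClosed {p | P p} := by
  refine ⟨isOpen_iff_mem_nhds.2 fun p hp => ?_⟩
  refine Filter.mem_of_superset
    (((A : Set K).toFinite.isOpen_biInter fun v _ =>
      (Set.finite_Iio n).isOpen_biInter fun i _ =>
        (isOpen_discrete {p v i}).preimage
          ((continuous_apply i).comp (continuous_apply v))).mem_nhds (x := p) (by simp)) ?_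
  intro q hq hq'
  simp only [Set.mem_iInter, Finset.mem_coe, Set.mem_Iio, Set.mem_preimage, Function.comp_apply,
    Set.mem_singleton_iff] at hq
  exact hp (h (fun v hv i hi => hq v hv i hi) hq')

lemma isClosed_Y : IsClosed T.Y := by
  rw [show T.Y = ⋂ (n) (A : Finset K), {p | (T.sys n).allowed A p} by ext; simp [Y]]
  exact isClosed_iInter fun n => isClosed_iInter fun A =>
    isClosed_of_finite_dep (fun h => (T.sys n).congr h)

lemma Y_nonempty : T.Y.Nonempty := by
  classical
  set Z : ℕ × Finset K → Set (Config K) := fun x => {p | (T.sys x.1).allowed x.2 p}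
  have hcl : ∀ x, IsClosed (Z x) := fun x => isClosed_of_finite_dep (fun h => (T.sys x.1).congr h)
  have hne : ∀ x, (Z x).Nonempty := fun x => by
    obtain ⟨q, -, hq⟩ := (T.sys x.1).extend ((T.sys x.1).empty (fun _ _ => 0)) x.2
    exact ⟨q, by simpa [Z] using hq⟩
  have hdir : Directed (· ⊇ ·) Z := fun x y =>
    ⟨(max x.1 y.1, x.2 ∪ y.2),
      fun p hp => (T.sys x.1).mono Finset.subset_union_left
        (T.allowed_of_le (le_max_left _ _) hp),
      fun p hp => (T.sys y.1).mono Finset.subset_union_right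
        (T.allowed_of_le (le_max_right _ _) hp)⟩
  obtain ⟨y, hy⟩ := IsCompact.nonempty_iInter_of_directed_nonempty_isCompact_isClosed Z hdir hne
    (fun x => (hcl x).isCompact) hcl
  exact ⟨y, fun n A => Set.mem_iInter.1 hy (n, A)⟩

lemma shift_mem (h : K) {y : Config K} (hy : y ∈ T.Y) : shift h y ∈ T.Y := fun n A => by
  have := (T.sys n).translate h (hy n (A.image (h⁻¹ * ·)))
  rwa [Finset.image_image, show ((fun x => h * x) ∘ fun x => h⁻¹ * x) = id from
    funext fun x => mul_inv_cancel_left h x, Finset.image_id] at this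

lemma free {y : Config K} (hy : y ∈ T.Y) {h : K} (hh : h ≠ 1) : shift h y ≠ y := by
  intro he
  obtain ⟨n, hn⟩ := T.g_surj h⁻¹ (by simpa using hh)
  have := (T.addColour_of_mem hy n {1, h⁻¹}).2 (by simpa [hn] using hh) 1 (by simp)
    (by simp [hn])
  rw [one_mul, hn] at this
  exact this (by conv_lhs => rw [← he]; simp [shift])

/-- The orbit of every point meets every cylinder of `Y`. -/
lemma minimal {y w : Config K} (hy : y ∈ T.Y) (hw : w ∈ T.Y) (A : Finset K) (m : ℕ) :
    ∃ h : K, Agree m A (shift h y) w := by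
  choose k hk using T.F_exhaust
  set n := max m (A.sup k)
  have hA : A ⊆ T.F n := fun x hx =>
    T.F_mono (le_trans (Finset.le_sup hx) (le_max_right m (A.sup k))) (hk x)
  obtain ⟨h, hh⟩ := T.full n w (T.addColour_of_mem hw n (T.F n))
  set D := dSet ((T.sys n).addColour (T.g n)).gap (T.S n)
  obtain ⟨v, -, q, hd, hq, -, hb⟩ :=
    ((T.step n _ y).1 (hy (n + 1) ({1} ∪ D * T.S n))).exists_block (T.one_mem n) (a := 1)
      (by simp)
  have hv : v ∈ D := by simpa [D] using inv_mem_dSet hd
  refine ⟨(v * h)⁻¹, fun x hx i hi => ?_⟩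
  obtain ⟨hS, hP⟩ := hh x (hA hx)
  have hi' : i < n + 1 := by omega
  show y ((v * h)⁻¹⁻¹ * x) i = w x i
  rw [inv_inv, mul_assoc, ← hP i (by omega), ← hb _ hS i hi',
    hq _ (Finset.mem_union_right _ (Finset.mul_mem_mul hv hS)) i hi']

/-- On a window, allowed for the colours means allowed with the block. -/
lemma allowed_succ {n : ℕ} {A : Finset K} {p : Config K} (hA : A ⊆ T.F n)
    (hp : ((T.sys n).addColour (T.g n)).allowed A p) : (T.sys (n + 1)).allowed A p := by
  rcases A.eq_empty_or_nonempty with rfl | ⟨a, ha⟩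
  · exact (T.sys (n + 1)).empty p
  obtain ⟨q, hq, hqa⟩ := ((T.sys n).addColour (T.g n)).extend hp (T.F n)
  obtain ⟨h, hh⟩ := T.full n q
    (((T.sys n).addColour (T.g n)).mono Finset.subset_union_right hqa)
  have hmem : ∀ x ∈ A, h * x ∈ T.S n := fun x hx => (hh x (hA hx)).1
  refine (T.step n A p).2 ⟨{h⁻¹}, shift h⁻¹ (T.P n), ?_, ?_, ?_, ?_, ?_, ?_⟩
  · refine Finset.singleton_subset_iff.2 (Finset.mem_mul.2 ⟨a, ha, (1 * (h * a)⁻¹) * 1, ?_,
      by simp⟩)
    exact Finset.mul_mem_mul (Finset.mul_mem_mul ((T.sys n).addColour (T.g n)).one_mem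
      (Finset.inv_mem_inv (hmem a ha))) (one_mem_dSet (T.one_mem n))
  · simp
  · intro u hu
    obtain ⟨x, hx, c, hc, rfl⟩ := Finset.mem_mul.1 hu
    obtain ⟨f, hf, s, hs, rfl⟩ := Finset.mem_mul.1 hc
    refine ⟨h⁻¹, Finset.mem_singleton_self _, ?_⟩
    rw [inv_inv, show h * (x * (f * s)) = h * x * f * s by group]
    exact Finset.mul_mem_mul (Finset.mul_mem_mul (hmem x hx) hf) hs
  · intro x hx i hi
    rw [shift, inv_inv, (hh x (hA hx)).2 i (Nat.le_of_lt_succ hi)]
    exact hq x hx i hi
  · refine ((T.sys n).addColour (T.g n)).mono ?_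
      (((T.sys n).addColour (T.g n)).translate h⁻¹ (T.block_allowed n))
    intro x hx
    rcases Finset.mem_union.1 hx with hx | hx
    · exact Finset.mem_image.2 ⟨h * x, hmem x hx, inv_mul_cancel_left h x⟩
    · rw [Finset.singleton_mul] at hx
      exact hx
  · intro v hv s _ i _
    rw [Finset.mem_singleton.1 hv]
    simp [shift]

/-- A colouring of a window whose later edges are absent extends to a point. -/
lemma exists_extension {n : ℕ} {A : Finset K} {p : Config K} (hA : A ⊆ T.F n)
    (hg : ∀ m ≥ n, ∀ v ∈ A, T.g m ≠ 1 → v * T.g m ∉ A) (hp : (T.sys n).allowed A p) :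
    ∃ y ∈ T.Y, ∀ v ∈ A, y v = p v := by
  classical
  have hall : ∀ m, (T.sys m).allowed A p := by
    intro m
    rcases le_total m n with h | h
    · exact T.allowed_of_le h hp
    induction h with
    | refl => exact hp
    | @step m hm ih =>
      exact T.allowed_succ (hA.trans (T.F_mono hm))
        ⟨ih, fun hne v hv hvg => absurd hvg (hg m hm v hv hne)⟩
  set Z : ℕ × Finset K → Set (Config K) :=
    fun x => {q | (T.sys x.1).allowed x.2 q ∧ ∀ v ∈ A, q v = p v}
  have hcl : ∀ x, IsClosed (Z x) := fun x => by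
    show IsClosed ({q | (T.sys x.1).allowed x.2 q} ∩ {q | ∀ v ∈ A, q v = p v})
    refine (isClosed_of_finite_dep fun h => (T.sys x.1).congr h).inter ?_
    simp only [Set.ofPred_forall]
    exact isClosed_iInter fun v => isClosed_iInter fun _ =>
      isClosed_eq (continuous_apply v) continuous_const
  have hne : ∀ x, (Z x).Nonempty := fun x => by
    obtain ⟨q, hq, hqa⟩ := (T.sys x.1).extend (hall x.1) x.2
    refine ⟨fun v => if v ∈ A then p v else q v, ?_, fun v hv => if_pos hv⟩
    refine (T.sys x.1).mono Finset.subset_union_right ((T.sys x.1).congr (fun v _ i hi => ?_) hqa)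
    by_cases hv : v ∈ A
    · simpa [hv] using hq v hv i hi
    · simp [hv]
  have hdir : Directed (· ⊇ ·) Z := fun x y =>
    ⟨(max x.1 y.1, x.2 ∪ y.2),
      fun q hq => ⟨(T.sys x.1).mono Finset.subset_union_left
        (T.allowed_of_le (le_max_left _ _) hq.1), hq.2⟩,
      fun q hq => ⟨(T.sys y.1).mono Finset.subset_union_right
        (T.allowed_of_le (le_max_right _ _) hq.1), hq.2⟩⟩
  obtain ⟨y, hy⟩ := IsCompact.nonempty_iInter_of_directed_nonempty_isCompact_isClosed Z hdir hne
    (fun x => (hcl x).isCompact) hcl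
  exact ⟨y, fun m B => (Set.mem_iInter.1 hy (m, B)).1, (Set.mem_iInter.1 hy (n, A)).2⟩

end Tower

end Vale.Agent.P193.Action
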