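import Mathlib
import Vale.Agent.P193.Action.Tower

/-!
# The tower as lists: a bounded search decides allowedness

A level is `(n, g)` with `(G, S, P)`: coordinate, edge, gap after colouring, support and block.
Lists of levels have the newest first.
-/

open scoped Pointwise

namespace Vale.Agent.P193.Action

/-- A finite colouring. -/
abbrev Assign (K : Type) : Type := List (K × List (Fin 3))

/-- The data of one level. -/
abbrev Lev (K : Type) : Type := (ℕ × K) × List K × List K × Assign K

variable {K : Type} [Group K] [DecidableEq K]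

/-- The colouring of an assignment. -/
def val (q : Assign K) : Config K := fun v i =>
  ((q.find? fun e => e.1 == v).getD (1, [])).2.getD i 0

/-- Product of lists. -/
def prodL (A B : List K) : List K := A.flatMap fun a => B.map (a * ·)

/-- Inverses of a list. -/
def invL (A : List K) : List K := A.map (·⁻¹)

/-- Membership. -/
def memB (x : K) (A : List K) : Bool := A.any (· == x)

/-- The exclusion thickening. -/
def cL (G S : List K) : List K := prodL G (invL S)

/-- The separation of centres. -/
def dL (G S : List K) : List K := prodL (prodL S G) (invL S)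

/-- Where centres lie. -/
def eL (G S : List K) : List K := prodL (cL G S) (dL G S)

/-- The reach. -/
def tL (G S : List K) : List K := 1 :: (eL G S ++ prodL (eL G S) S)

/-- The gap after adding a block. -/
def gapL (G S : List K) : List K := prodL (prodL (tL G S) (G ++ dL G S)) (invL (tL G S))

/-- All sublists up to order. -/
def subsL (A : List K) : List (List K) :=
  A.foldl (fun acc x => acc ++ acc.map fun C => x :: C) [[]]

/-- All rows of colours of a length. -/
def rowsL (n : ℕ) : List (List (Fin 3)) :=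
  Nat.rec [[]] (fun _ R => R.flatMap fun l => [0, 1, 2].map fun c => c :: l) n

/-- All assignments of rows to a list of points. -/
def choicesL (n : ℕ) (A : List K) : List (Assign K) :=
  A.foldl (fun acc v => acc.flatMap fun q => (rowsL n).map fun r => (v, r) :: q) [[]]

/-- Agreement of two colourings. -/
def agreeB (n : ℕ) (A : List K) (p q : Config K) : Bool :=
  A.all fun v => (List.range n).all fun i => p v i == q v i

/-- Properness. -/
def properB (n : ℕ) (g : K) (A : List K) (q : Config K) : Bool :=
  g == 1 || A.all fun v => !memB (v * g) A || !(q v n == q (v * g) n)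

/-- Separation of a list of centres. -/
def sepB (D C : List K) : Bool := C.all fun v => C.all fun w => v == w || !memB (v⁻¹ * w) D

/-- Coverage by a list of centres. -/
def coverB (D U C : List K) : Bool := U.all fun u => C.any fun v => memB (v⁻¹ * u) D

/-- The block occurs at every centre. -/
def blockB (n : ℕ) (S C : List K) (P q : Config K) : Bool :=
  C.all fun v => S.all fun s => (List.range n).all fun i => q (v * s) i == P s i

/-- The condition of one level. -/
def levB (l : Lev K) (A : List K) (q : Config K) : Bool :=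
  ((subsL (prodL A (eL l.2.1 l.2.2.1))).any fun C =>
    sepB (dL l.2.1 l.2.2.1) C && coverB (dL l.2.1 l.2.2.1) (prodL A (cL l.2.1 l.2.2.1)) C &&
      blockB (l.1.1 + 1) l.2.2.1 C (val l.2.2.2) q) &&
  properB l.1.1 l.1.2 (prodL A (tL l.2.1 l.2.2.1)) q

/-- The innermost domain. -/
def domL : List (Lev K) → List K → List K
  | [], A => A
  | l :: ls, A => domL ls (prodL A (tL l.2.1 l.2.2.1))

/-- All conditions. -/
def check : List (Lev K) → List K → Config K → Bool
  | [], _, _ => true
  | l :: ls, A, q => levB l A q && check ls (prodL A (tL l.2.1 l.2.2.1)) q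

/-- Allowedness by bounded search. -/
def allowedB (n : ℕ) (ls : List (Lev K)) (A : List K) (p : Assign K) : Bool :=
  (choicesL n (domL ls A)).any fun q => agreeB n A (val q) (val p) && check ls A (val q)

/-- Allowedness with one more coloured coordinate. -/
def colourB (n : ℕ) (ls : List (Lev K)) (g : K) (A : List K) (p : Assign K) : Bool :=
  allowedB n ls A p && properB n g A (val p)

/-! ### Simple facts -/

omit [Group K] in
@[simp] lemma memB_iff {x : K} {A : List K} : memB x A = true ↔ x ∈ A := by simp [memB]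

omit [Group K] in
@[simp] lemma memB_false_iff {x : K} {A : List K} : memB x A = false ↔ x ∉ A := by
  rw [← Bool.not_eq_true, memB_iff]

lemma toFinset_prodL (A B : List K) : (prodL A B).toFinset = A.toFinset * B.toFinset := by
  ext x
  simp [prodL, Finset.mem_mul]

lemma toFinset_invL (A : List K) : (invL A).toFinset = A.toFinset⁻¹ := by
  ext x
  simp [invL]

lemma toFinset_cL (G S : List K) : (cL G S).toFinset = cSet G.toFinset S.toFinset := by
  simp [cL, cSet, toFinset_prodL, toFinset_invL]

lemma toFinset_dL (G S : List K) : (dL G S).toFinset = dSet G.toFinset S.toFinset := by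
  simp [dL, dSet, toFinset_prodL, toFinset_invL]

lemma toFinset_eL (G S : List K) : (eL G S).toFinset = eSet G.toFinset S.toFinset := by
  simp [eL, eSet, toFinset_prodL, toFinset_cL, toFinset_dL]

lemma toFinset_tL (G S : List K) : (tL G S).toFinset = tSet G.toFinset S.toFinset := by
  simp [tL, tSet, toFinset_prodL, toFinset_eL]

lemma toFinset_gapL (G S : List K) : (gapL G S).toFinset = gapSet G.toFinset S.toFinset := by
  simp [gapL, gapSet, toFinset_prodL, toFinset_invL, toFinset_tL, toFinset_dL]

omit [Group K] in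
lemma mem_subsL_aux (C : Finset K) (A : List K) (acc : List (List K)) (l : List K)
    (hl : l ∈ acc) :
    ∃ l' ∈ A.foldl (fun acc x => acc ++ acc.map fun C => x :: C) acc,
      l'.toFinset = l.toFinset ∪ A.toFinset ∩ C := by
  induction A generalizing acc l with
  | nil => exact ⟨l, hl, by simp⟩
  | cons x A ih =>
    by_cases hx : x ∈ C
    · obtain ⟨l', h1, h2⟩ := ih (acc ++ acc.map (x :: ·)) (x :: l)
        (List.mem_append_right _ (List.mem_map_of_mem hl))
      refine ⟨l', h1, h2.trans ?_⟩
      simp [Finset.insert_inter_of_mem hx, Finset.union_insert, Finset.insert_union]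
    · obtain ⟨l', h1, h2⟩ := ih (acc ++ acc.map (x :: ·)) l (List.mem_append_left _ hl)
      exact ⟨l', h1, h2.trans (by simp [Finset.insert_inter_of_notMem hx])⟩

omit [Group K] in
lemma exists_mem_subsL {A : List K} {C : Finset K} (h : C ⊆ A.toFinset) :
    ∃ l ∈ subsL A, l.toFinset = C := by
  obtain ⟨l, h1, h2⟩ := mem_subsL_aux C A [[]] [] (by simp)
  exact ⟨l, h1, h2.trans (by simpa using h)⟩

omit [Group K] in
lemma subset_of_mem_subsL {A l : List K} (h : l ∈ subsL A) : l.toFinset ⊆ A.toFinset := by
  suffices H : ∀ (B : List K) (acc : List (List K)) (U : Finset K),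
      (∀ c ∈ acc, c.toFinset ⊆ U) →
      ∀ c ∈ B.foldl (fun acc x => acc ++ acc.map fun C => x :: C) acc,
        c.toFinset ⊆ U ∪ B.toFinset by
    simpa using H A [[]] ∅ (by simp) l h
  intro B
  induction B with
  | nil => intro acc U hacc c hc; simpa using hacc c hc
  | cons x B ih =>
    intro acc U hacc c hc
    refine (ih _ (insert x U) ?_ c hc).trans ?_
    · intro d hd
      rcases List.mem_append.1 hd with hd | hd
      · exact (hacc d hd).trans (Finset.subset_insert x U)
      · obtain ⟨d, hd', rfl⟩ := List.mem_map.1 hd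
        simpa using Finset.insert_subset_insert x (hacc d hd')
    · intro y
      simp

omit [Group K] [DecidableEq K] in
lemma row_mem_rowsL (n : ℕ) (f : ℕ → Fin 3) : (List.range n).map f ∈ rowsL n := by
  induction n generalizing f with
  | zero => simp [rowsL]
  | succ n ih =>
    show _ ∈ (rowsL n).flatMap fun l => [0, 1, 2].map fun c => c :: l
    rw [List.range_succ_eq_map, List.map_cons, List.map_map]
    refine List.mem_flatMap.2 ⟨_, ih (f ∘ Nat.succ), List.mem_map.2 ⟨f 0, ?_, rfl⟩⟩
    rcases f 0 with ⟨_ | _ | _ | k, hk⟩ <;> simp at hk ⊢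
    omega

/-- The row of a colouring at a point. -/
def rowOf (n : ℕ) (p : Config K) (v : K) : List (Fin 3) := (List.range n).map (p v)

omit [Group K] [DecidableEq K] in
lemma getD_rowOf {n i : ℕ} (p : Config K) (v : K) (hi : i < n) :
    (rowOf n p v).getD i 0 = p v i := by
  simp [rowOf, List.getD_eq_getElem?_getD, hi]

lemma val_cons (q : Assign K) (w v : K) (r : List (Fin 3)) (i : ℕ) :
    val ((w, r) :: q) v i = if w = v then r.getD i 0 else val q v i := by
  by_cases h : w = v <;> simp [val, h]

lemma exists_choice (n : ℕ) (A : List K) (p : Config K) :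
    ∃ q ∈ choicesL n A, Agree n A.toFinset (val q) p := by
  suffices H : ∀ (B : List K) (acc : List (Assign K)) (U : Finset K),
      (∃ q ∈ acc, Agree n U (val q) p) →
      ∃ q ∈ B.foldl (fun acc v => acc.flatMap fun q => (rowsL n).map fun r => (v, r) :: q) acc,
        Agree n (U ∪ B.toFinset) (val q) p by
    simpa [choicesL] using H A [[]] ∅
      ⟨[], by simp, fun v hv => absurd hv (Finset.notMem_empty v)⟩
  intro B
  induction B with
  | nil => intro acc U h; simpa using h
  | cons x B ih =>
    rintro acc U ⟨q, hq, ha⟩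
    obtain ⟨q', h1, h2⟩ := ih (acc.flatMap fun q => (rowsL n).map fun r => (x, r) :: q)
      (insert x U) ⟨(x, rowOf n p x) :: q,
        List.mem_flatMap.2 ⟨q, hq, List.mem_map.2 ⟨_, row_mem_rowsL n (p x), rfl⟩⟩,
        fun v hv i hi => by
          rw [val_cons]
          split
          · next h => subst h; exact getD_rowOf p _ hi
          · next h => exact ha v ((Finset.mem_insert.1 hv).resolve_left (Ne.symm h)) i hi⟩
    exact ⟨q', h1, h2.mono le_rfl (by intro y; simp)⟩

omit [Group K] in
lemma agreeB_iff {n : ℕ} {A : List K} {p q : Config K} :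
    agreeB n A p q = true ↔ Agree n A.toFinset p q := by
  simp [agreeB, Agree]

lemma properB_iff {n : ℕ} {g : K} {A : List K} {q : Config K} :
    properB n g A q = true ↔ Proper g n A.toFinset q := by
  simp [properB, Proper]
  refine ⟨fun h hg v hv hvg => ((h.resolve_left hg) v hv).resolve_left (not_not.2 hvg),
    fun h => (em (g = 1)).imp_right fun hg v hv => ?_⟩
  by_cases hvg : v * g ∈ A
  · exact Or.inr (h hg v hv hvg)
  · exact Or.inl hvg

lemma levB_iff (l : Lev K) (A : List K) (q : Config K) :
    levB l A q = true ↔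
      (∃ C ⊆ A.toFinset * eSet l.2.1.toFinset l.2.2.1.toFinset,
        (∀ v ∈ C, ∀ w ∈ C, v ≠ w → v⁻¹ * w ∉ dSet l.2.1.toFinset l.2.2.1.toFinset) ∧
        (∀ u ∈ A.toFinset * cSet l.2.1.toFinset l.2.2.1.toFinset,
          ∃ v ∈ C, v⁻¹ * u ∈ dSet l.2.1.toFinset l.2.2.1.toFinset) ∧
        ∀ v ∈ C, ∀ s ∈ l.2.2.1.toFinset, ∀ i < l.1.1 + 1, q (v * s) i = val l.2.2.2 s i) ∧
      Proper l.1.2 l.1.1 (A.toFinset * tSet l.2.1.toFinset l.2.2.1.toFinset) q := by
  rw [levB, Bool.and_eq_true, properB_iff, toFinset_prodL, toFinset_tL]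
  refine and_congr_left fun _ => ?_
  simp only [← toFinset_cL, ← toFinset_dL, ← toFinset_eL, ← toFinset_prodL]
  constructor
  · intro h
    obtain ⟨C, hC, hh⟩ := List.any_eq_true.1 h
    simp [sepB, coverB, blockB] at hh
    refine ⟨C.toFinset, subset_of_mem_subsL hC, ?_, ?_, ?_⟩
    · intro v hv w hw hne
      simpa [hne] using hh.1.1 v (List.mem_toFinset.1 hv) w (List.mem_toFinset.1 hw)
    · simpa using hh.1.2
    · intro v hv s hs i hi
      exact hh.2 v (List.mem_toFinset.1 hv) s (List.mem_toFinset.1 hs) i (Nat.lt_succ_iff.1 hi)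
  · rintro ⟨C, hC, hs, hc, hb⟩
    obtain ⟨l', hl, rfl⟩ := exists_mem_subsL hC
    refine List.any_eq_true.2 ⟨l', hl, ?_⟩
    simp only [List.mem_toFinset] at hs hc hb
    simp [sepB, coverB, blockB]
    refine ⟨⟨fun v hv w hw => ?_, hc⟩, fun v hv s hs i hi => hb v hv s hs i (Nat.lt_succ_iff.2 hi)⟩
    by_cases h : v = w
    · exact Or.inl h
    · exact Or.inr (hs v hv w hw h)

/-! ### Lists of levels that describe a system -/

/-- `ls` describes `σ` with gap list `G`. -/
structure Models {n : ℕ} (G : List K) (ls : List (Lev K)) (σ : Sys K n) : Prop where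
  gap : σ.gap = G.toFinset
  depends : ∀ {A q q'}, Agree n (domL ls A).toFinset q q' → check ls A q = true →
    check ls A q' = true
  subset : ∀ A, A.toFinset ⊆ (domL ls A).toFinset
  iff : ∀ A p, σ.allowed A.toFinset p ↔ ∃ q, Agree n A.toFinset q p ∧ check ls A q = true

lemma models_trivial : Models [1] [] (Sys.trivial K) where
  gap := by simp [Sys.trivial]
  depends _ h := h
  subset _ := subset_rfl
  iff _ p := ⟨fun _ => ⟨p, fun _ _ _ _ => rfl, rfl⟩, fun _ => True.intro⟩

lemma subset_mul_tSet (A G S : Finset K) : A ⊆ A * tSet G S :=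
  fun a ha => Finset.mem_mul.2 ⟨a, ha, 1, Finset.mem_insert_self 1 _, mul_one a⟩

lemma Models.step {n : ℕ} {G : List K} {ls : List (Lev K)} {σ : Sys K n} (M : Models G ls σ)
    (g : K) (S : List K) (P : Assign K) (h1 : (1 : K) ∈ S.toFinset)
    (hP : (σ.addColour g).allowed S.toFinset (val P)) :
    Models (gapL (g :: g⁻¹ :: G) S) (((n, g), g :: g⁻¹ :: G, S, P) :: ls)
      ((σ.addColour g).addBlock S.toFinset (val P) h1 hP) := by
  have hgap : (g :: g⁻¹ :: G).toFinset = (σ.addColour g).gap := by
    simp [Sys.addColour, M.gap]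
  set l : Lev K := ((n, g), g :: g⁻¹ :: G, S, P)
  have hT : ∀ A : List K, (prodL A (tL l.2.1 l.2.2.1)).toFinset =
      A.toFinset * tSet (σ.addColour g).gap S.toFinset := fun A => by
    rw [toFinset_prodL, toFinset_tL, ← hgap]
  refine ⟨?_, fun {A q q'} h hc => ?_, fun A => ?_, fun A p => ⟨?_, ?_⟩⟩
  · rw [toFinset_gapL, hgap]
    rfl
  · simp only [check, domL, Bool.and_eq_true] at hc h ⊢
    refine ⟨?_, M.depends (h.mono (Nat.le_succ n) subset_rfl) hc.2⟩
    have hsub : A.toFinset * tSet (σ.addColour g).gap S.toFinset ⊆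
        (domL ls (prodL A (tL l.2.1 l.2.2.1))).toFinset := hT A ▸ M.subset _
    rw [levB_iff] at hc ⊢
    simp only [l] at hc ⊢
    rw [hgap] at hc ⊢
    obtain ⟨⟨C, hC, hs, hcv, hb⟩, hpr⟩ := hc.1
    refine ⟨⟨C, hC, hs, hcv, fun v hv s hs' i hi => ?_⟩, fun hg v hv hvg => ?_⟩
    · rw [← h (v * s) (hsub ?_) i hi]
      · exact hb v hv s hs' i hi
      · obtain ⟨a, ha, f, hf, rfl⟩ := Finset.mem_mul.1 (hC hv)
        exact Finset.mem_mul.2 ⟨a, ha, f * s, Finset.mem_insert_of_mem
          (Finset.mem_union_right _ (Finset.mul_mem_mul hf hs')), (mul_assoc a f s).symm⟩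
    · rw [← h v (hsub hv) n (Nat.lt_succ_self n), ← h _ (hsub hvg) n (Nat.lt_succ_self n)]
      exact hpr hg v hv hvg
  · exact ((subset_mul_tSet _ _ _).trans_eq (hT A).symm).trans (M.subset _)
  · rintro ⟨C, q, w⟩
    obtain ⟨q2, hq2, hq2a⟩ := (σ.addColour g).extend w.inner
      (A.toFinset * tSet (σ.addColour g).gap S.toFinset)
    have hin := (σ.addColour g).mono Finset.subset_union_right hq2a
    rw [← hT A] at hin
    obtain ⟨q3, hq3, hq3c⟩ := (M.iff _ _).1 hin.1
    set q4 : Config K := fun v i => if i = n then q2 v i else q3 v i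
    have h4 : Agree (n + 1) (prodL A (tL l.2.1 l.2.2.1)).toFinset q4 q2 := fun v hv i hi => by
      by_cases h : i = n
      · simp [q4, h]
      · simpa [q4, h] using hq3 v hv i (by omega)
    have hc4 : check ls (prodL A (tL l.2.1 l.2.2.1)) q4 = true :=
      M.depends (fun v _ i hi => by simp [q4, hi.ne]) hq3c
    rw [hT A] at h4
    refine ⟨q4, fun v hv i hi => ?_, ?_⟩
    · rw [h4 v (subset_mul_tSet _ _ _ hv) i hi, hq2 v (Finset.mem_union_left _ hv) i hi]
      exact w.agree v hv i hi
    · simp only [check, Bool.and_eq_true]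
      refine ⟨?_, hc4⟩
      rw [levB_iff]
      simp only [l]
      rw [hgap]
      refine ⟨⟨C, w.sub, w.sep, w.cover, fun v hv s hs i hi => ?_⟩, fun hg v hv hvg => ?_⟩
      · rw [h4 _ ?_ i hi, hq2 _ (Finset.mem_union_right _ (Finset.mul_mem_mul hv hs)) i hi]
        · exact w.block v hv s hs i hi
        · obtain ⟨a, ha, t, ht, e⟩ :=
            mem_reach w (Finset.mem_union_right _ (Finset.mul_mem_mul hv hs))
          exact Finset.mem_mul.2 ⟨a, ha, t, ht, e⟩
      · rw [h4 v hv n (Nat.lt_succ_self n), h4 _ hvg n (Nat.lt_succ_self n)]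
        rw [hT A] at hin
        exact hin.2 hg v hv hvg
  · rintro ⟨q, hq, hc⟩
    simp only [check, Bool.and_eq_true] at hc
    rw [levB_iff] at hc
    simp only [l] at hc
    rw [hgap] at hc
    obtain ⟨⟨⟨C, hC, hs, hcv, hb⟩, hpr⟩, hck⟩ := hc
    have hin : (σ.addColour g).allowed (A.toFinset * tSet (σ.addColour g).gap S.toFinset) q :=
      ⟨hT A ▸ (M.iff _ _).2 ⟨q, fun _ _ _ _ => rfl, hck⟩, hpr⟩
    refine ⟨C, q, hC, hs, hcv, hq, (σ.addColour g).mono ?_ hin, hb⟩
    refine Finset.union_subset (subset_mul_tSet _ _ _) fun x hx => ?_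
    obtain ⟨v, hv, s, hs', rfl⟩ := Finset.mem_mul.1 hx
    obtain ⟨a, ha, f, hf, rfl⟩ := Finset.mem_mul.1 (hC hv)
    exact Finset.mem_mul.2 ⟨a, ha, f * s, Finset.mem_insert_of_mem
      (Finset.mem_union_right _ (Finset.mul_mem_mul hf hs')), (mul_assoc a f s).symm⟩

lemma Models.allowedB_iff {n : ℕ} {G : List K} {ls : List (Lev K)} {σ : Sys K n}
    (M : Models G ls σ) (A : List K) (p : Assign K) :
    allowedB n ls A p = true ↔ σ.allowed A.toFinset (val p) := by
  rw [M.iff, allowedB, List.any_eq_true]
  simp only [Bool.and_eq_true, agreeB_iff]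
  constructor
  · rintro ⟨q, -, h1, h2⟩
    exact ⟨val q, h1, h2⟩
  · rintro ⟨q, h1, h2⟩
    obtain ⟨q', hq', h'⟩ := exists_choice n (domL ls A) q
    exact ⟨q', hq', (h'.mono le_rfl (M.subset A)).trans h1, M.depends h'.symm h2⟩

lemma Models.colourB_iff {n : ℕ} {G : List K} {ls : List (Lev K)} {σ : Sys K n}
    (M : Models G ls σ) (g : K) (A : List K) (p : Assign K) :
    colourB n ls g A p = true ↔ (σ.addColour g).allowed A.toFinset (val p) := by
  rw [colourB, Bool.and_eq_true, M.allowedB_iff, properB_iff]
  rfl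

end Vale.Agent.P193.Action
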