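import Mathlib
import Vale.Agent.P193.Action.Data

/-!
# The computable choice of levels, and the tower it gives
-/

open scoped Pointwise

namespace Vale.Agent.P193.Action

variable {K : Type} [Group K] [DecidableEq K] [Denumerable K]

/-- The first `n` elements. -/
def elemsL (K : Type) [Denumerable K] (n : ℕ) : List K :=
  (List.range n).map (Denumerable.ofNat K)

/-- An element outside a list. -/
def fresh (X : List K) : K := ((elemsL K (X.length + 1)).find? fun h => !memB h X).getD 1

/-- Put a copy of a pattern on `F` apart from the copies so far. -/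
def placeStep (n : ℕ) (G F : List K) (acc : List K × Assign K) (q : Assign K) :
    List K × Assign K :=
  (acc.1 ++ F.map (fresh (prodL acc.1 (prodL G (invL F))) * ·),
    F.map (fun x => (fresh (prodL acc.1 (prodL G (invL F))) * x, rowOf n (val q) x)) ++ acc.2)

/-- Copies of all the given patterns, apart from each other. -/
def placeAll (n : ℕ) (G F : List K) (pats : List (Assign K)) : List K × Assign K :=
  pats.foldl (placeStep n G F) ([], [])

/-- The gap with the new colouring edges. -/
def edgeGap (g : K) (G : List K) : List K := g :: g⁻¹ :: G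

/-- The allowed patterns on the window of level `n`. -/
def patsOf (n : ℕ) (g : K) (ls : List (Lev K)) : List (Assign K) :=
  (choicesL (n + 1) (elemsL K (n + 1))).filter (colourB n ls g (elemsL K (n + 1)))

/-- The union of the copies, with their colours. -/
def placedOf (n : ℕ) (st : List K × List (Lev K)) : List K × Assign K :=
  placeAll (n + 1) (edgeGap (Denumerable.ofNat K n) st.1) (elemsL K (n + 1))
    (patsOf n (Denumerable.ofNat K n) st.2)

/-- The support of the block. -/
def suppOf (n : ℕ) (st : List K × List (Lev K)) : List K := 1 :: (placedOf n st).1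

/-- The block. -/
def blockOf (n : ℕ) (st : List K × List (Lev K)) : Assign K :=
  ((choicesL (n + 1) (suppOf n st)).find? fun q =>
    colourB n st.2 (Denumerable.ofNat K n) (suppOf n st) q &&
      agreeB (n + 1) (placedOf n st).1 (val q) (val (placedOf n st).2)).getD []

/-- The next gap and levels. -/
def nextState (n : ℕ) (st : List K × List (Lev K)) : List K × List (Lev K) :=
  (gapL (edgeGap (Denumerable.ofNat K n) st.1) (suppOf n st),
    ((n, Denumerable.ofNat K n), edgeGap (Denumerable.ofNat K n) st.1, suppOf n st,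
      blockOf n st) :: st.2)

/-- The gap and levels after `n` steps. -/
def stateAt (K : Type) [Group K] [DecidableEq K] [Denumerable K] (n : ℕ) :
    List K × List (Lev K) :=
  Nat.rec ([1], []) (fun m st => nextState m st) n

/-! ### Properties -/

omit [DecidableEq K] [Group K] in
lemma nodup_elemsL (n : ℕ) : (elemsL K n).Nodup :=
  List.nodup_range.map fun a b h => by simpa using congrArg Encodable.encode h

lemma fresh_notMem (X : List K) : fresh X ∉ X := by
  obtain ⟨h, hh⟩ : ∃ h ∈ elemsL K (X.length + 1), h ∉ X := by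
    by_contra hne
    push Not at hne
    have h2 := Finset.card_le_card (s := (elemsL K (X.length + 1)).toFinset) (t := X.toFinset)
      fun x hx => List.mem_toFinset.2 (hne x (List.mem_toFinset.1 hx))
    rw [List.toFinset_card_of_nodup (nodup_elemsL _)] at h2
    simp [elemsL] at h2
    have := List.toFinset_card_le X
    omega
  obtain ⟨r, hr⟩ := Option.isSome_iff_exists.1 (List.find?_isSome
    (p := fun h => !memB h X).2 ⟨h, hh.1, by simpa using hh.2⟩)
  have := List.find?_some hr
  rw [fresh, hr]
  simpa using this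

variable {n : ℕ} {G : List K}

omit [Denumerable K] in
lemma val_append_notMem {A B : Assign K} {v : K} (h : ∀ e ∈ A, e.1 ≠ v) (i : ℕ) :
    val (A ++ B) v i = val B v i := by
  induction A with
  | nil => rfl
  | cons e A ih =>
    obtain ⟨w, r⟩ := e
    rw [List.cons_append, val_cons, if_neg (h (w, r) List.mem_cons_self)]
    exact ih fun e he => h e (List.mem_cons_of_mem _ he)

omit [Denumerable K] in
lemma val_copy {F : List K} (h : K) (q : Config K) (B : Assign K) {x : K} (hx : x ∈ F) {i : ℕ}
    (hi : i < n) :
    val (F.map (fun y => (h * y, rowOf n q y)) ++ B) (h * x) i = q x i := by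
  induction F with
  | nil => simp at hx
  | cons y F ih =>
    rw [List.map_cons, List.cons_append, val_cons]
    by_cases hy : y = x
    · subst hy
      rw [if_pos rfl, getD_rowOf q y hi]
    · rw [if_neg fun he => hy (mul_left_cancel he)]
      exact ih ((List.mem_cons.1 hx).resolve_left fun he => hy he.symm)

/-- What a run of `placeAll` guarantees. -/
structure Placed (σ : Sys K n) (F : List K) (pats : List (Assign K)) (acc : List K × Assign K) :
    Prop where
  allowed : σ.allowed acc.1.toFinset (val acc.2)
  copy : ∀ q ∈ pats, ∃ h : K, ∀ x ∈ F, h * x ∈ acc.1 ∧ ∀ i < n, val acc.2 (h * x) i = val q x i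

lemma placed_step {σ : Sys K n} (hG : σ.gap = G.toFinset) {F : List K} {done : List (Assign K)}
    {acc : List K × Assign K} (hp : Placed σ F done acc) {q : Assign K}
    (hq : σ.allowed F.toFinset (val q)) :
    Placed σ F (q :: done) (placeStep n G F acc q) := by
  set h := fresh (prodL acc.1 (prodL G (invL F)))
  set Q := F.map (fun x => (h * x, rowOf n (val q) x)) ++ acc.2
  have hne : ∀ u ∈ acc.1, ∀ x ∈ F, u⁻¹ * (h * x) ∉ σ.gap := by
    intro u hu x hx hg
    refine fresh_notMem (prodL acc.1 (prodL G (invL F))) ?_
    show h ∈ prodL acc.1 (prodL G (invL F))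
    rw [← List.mem_toFinset, toFinset_prodL, toFinset_prodL, toFinset_invL, ← hG]
    exact Finset.mem_mul.2 ⟨u, List.mem_toFinset.2 hu, u⁻¹ * (h * x) * x⁻¹,
      Finset.mul_mem_mul hg (Finset.inv_mem_inv (List.mem_toFinset.2 hx)), by group⟩
  have hap : Apart σ.gap acc.1.toFinset (F.toFinset.image (h * ·)) := by
    intro u hu y hy
    obtain ⟨x, hx, rfl⟩ := Finset.mem_image.1 hy
    exact hne u (List.mem_toFinset.1 hu) x (List.mem_toFinset.1 hx)
  have hold : ∀ v ∈ acc.1, ∀ i, val Q v i = val acc.2 v i := fun v hv i => by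
    refine val_append_notMem (fun e he hev => ?_) i
    obtain ⟨x, hx, rfl⟩ := List.mem_map.1 he
    refine hne v hv x hx ?_
    simp only at hev
    rw [hev, inv_mul_cancel]
    exact σ.one_mem
  have hnew : ∀ x ∈ F, ∀ i < n, val Q (h * x) i = val q x i := fun x hx i hi =>
    val_copy h (val q) acc.2 hx hi
  refine ⟨?_, fun p hp' => ?_⟩
  · have e : (placeStep n G F acc q).1.toFinset = acc.1.toFinset ∪ F.toFinset.image (h * ·) := by
      ext y
      simp only [placeStep, h, List.mem_toFinset, List.mem_append, List.mem_map, Finset.mem_union,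
        Finset.mem_image]
    rw [e]
    refine σ.glue (σ.congr (fun v hv i _ => (hold v (List.mem_toFinset.1 hv) i).symm) hp.allowed)
      (σ.congr (fun v hv i hi => ?_) (σ.translate h hq)) hap
    obtain ⟨x, hx, rfl⟩ := Finset.mem_image.1 hv
    exact (by simp [shift] : shift h (val q) (h * x) i = val q x i).trans
      (hnew x (List.mem_toFinset.1 hx) i hi).symm
  · rcases List.mem_cons.1 hp' with rfl | hp'
    · exact ⟨h, fun x hx => ⟨List.mem_append_right _ (List.mem_map_of_mem hx), hnew x hx⟩⟩
    · obtain ⟨g, hg⟩ := hp.copy p hp'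
      exact ⟨g, fun x hx => ⟨List.mem_append_left _ (hg x hx).1,
        fun i hi => (hold _ (hg x hx).1 i).trans ((hg x hx).2 i hi)⟩⟩

lemma placed_all {σ : Sys K n} (hG : σ.gap = G.toFinset) {F : List K} {pats : List (Assign K)}
    (hq : ∀ q ∈ pats, σ.allowed F.toFinset (val q)) :
    Placed σ F pats (placeAll n G F pats) := by
  suffices H : ∀ (ps done : List (Assign K)) (acc : List K × Assign K),
      (∀ q ∈ ps, σ.allowed F.toFinset (val q)) → Placed σ F done acc →
      Placed σ F (done ++ ps) (ps.foldl (placeStep n G F) acc) from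
    H pats [] ([], []) hq ⟨by simpa using σ.empty _, fun q h => absurd h List.not_mem_nil⟩
  intro ps
  induction ps with
  | nil => intro done acc _ h; simpa using h
  | cons q ps ih =>
    intro done acc hps h
    have := ih (q :: done) _ (fun p hp => hps p (List.mem_cons_of_mem _ hp))
      (placed_step hG h (hps q List.mem_cons_self))
    exact ⟨this.allowed, fun p hp => this.copy p (by simp at hp ⊢; tauto)⟩

lemma blockOf_spec {σ : Sys K n} (st : List K × List (Lev K)) (M : Models st.1 st.2 σ) :
    (1 : K) ∈ (suppOf n st).toFinset ∧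
    (σ.addColour (Denumerable.ofNat K n)).allowed (suppOf n st).toFinset (val (blockOf n st)) ∧
    ∀ p : Config K, (σ.addColour (Denumerable.ofNat K n)).allowed (elemsL K (n + 1)).toFinset p →
      ∃ h : K, ∀ x ∈ (elemsL K (n + 1)).toFinset, h * x ∈ (suppOf n st).toFinset ∧
        ∀ i ≤ n, val (blockOf n st) (h * x) i = p x i := by
  set g : K := Denumerable.ofNat K n
  set τ := σ.addColour g
  have hG : τ.gap = (edgeGap g st.1).toFinset := by simp [τ, Sys.addColour, edgeGap, M.gap]
  have hP := placed_all (σ := τ) hG (F := elemsL K (n + 1)) (pats := patsOf n g st.2)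
    fun q hq => (M.colourB_iff g _ q).1 (List.mem_filter.1 hq).2
  obtain ⟨p1, hp1, hp1a⟩ := τ.extend hP.allowed {1}
  obtain ⟨q1, hq1, hq1a⟩ := exists_choice (n + 1) (suppOf n st) p1
  have hsupp : (suppOf n st).toFinset = (placedOf n st).1.toFinset ∪ {1} := by
    ext y
    simp [suppOf]
  have hgood : (colourB n st.2 g (suppOf n st) q1 &&
      agreeB (n + 1) (placedOf n st).1 (val q1) (val (placedOf n st).2)) = true := by
    refine Bool.and_eq_true_iff.2 ⟨(M.colourB_iff g _ q1).2 ?_, agreeB_iff.2 ?_⟩
    · rw [hsupp] at hq1a ⊢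
      exact τ.congr hq1a.symm hp1a
    · exact (hq1a.mono le_rfl (hsupp ▸ Finset.subset_union_left)).trans hp1
  obtain ⟨r, hr⟩ := Option.isSome_iff_exists.1 (List.find?_isSome
    (p := fun q => colourB n st.2 g (suppOf n st) q &&
      agreeB (n + 1) (placedOf n st).1 (val q) (val (placedOf n st).2)).2 ⟨q1, hq1, hgood⟩)
  have hr2 := List.find?_some hr
  rw [Bool.and_eq_true, M.colourB_iff, agreeB_iff] at hr2
  have hblock : blockOf n st = r := by
    unfold blockOf
    rw [hr]
    rfl
  rw [hblock]
  refine ⟨by simp [suppOf], hr2.1, fun p hp => ?_⟩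
  obtain ⟨q, hq, hqa⟩ := exists_choice (n + 1) (elemsL K (n + 1)) p
  obtain ⟨h, hh⟩ := hP.copy q (List.mem_filter.2 ⟨hq, (M.colourB_iff g _ q).2
    (τ.congr hqa.symm hp)⟩)
  refine ⟨h, fun x hx => ?_⟩
  obtain ⟨hm, hv⟩ := hh x (List.mem_toFinset.1 hx)
  refine ⟨?_, fun i hi => ?_⟩
  · rw [hsupp]
    exact Finset.mem_union_left _ (List.mem_toFinset.2 hm)
  · have h1 := hr2.2 (h * x) (List.mem_toFinset.2 hm) i (Nat.lt_succ_of_le hi)
    exact (h1.trans (hv i (Nat.lt_succ_of_le hi))).trans (hqa x hx i (Nat.lt_succ_of_le hi))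

/-- The systems, with the proof that the states describe them. -/
noncomputable def sysAt : ∀ n, {σ : Sys K n // Models (stateAt K n).1 (stateAt K n).2 σ}
  | 0 => ⟨Sys.trivial K, models_trivial⟩
  | n + 1 => ⟨((sysAt n).1.addColour (Denumerable.ofNat K n)).addBlock
        (suppOf n (stateAt K n)).toFinset (val (blockOf n (stateAt K n)))
        (blockOf_spec _ (sysAt n).2).1 (blockOf_spec _ (sysAt n).2).2.1,
      (sysAt n).2.step _ _ _ _ _⟩

/-- The tower. -/
noncomputable def tower (K : Type) [Group K] [DecidableEq K] [Denumerable K] : Tower K where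
  sys n := (sysAt n).1
  g n := Denumerable.ofNat K n
  S n := (suppOf n (stateAt K n)).toFinset
  P n := val (blockOf n (stateAt K n))
  F n := (elemsL K (n + 1)).toFinset
  one_mem n := (blockOf_spec _ (sysAt n).2).1
  block_allowed n := (blockOf_spec _ (sysAt n).2).2.1
  step _ _ _ := Iff.rfl
  full n := (blockOf_spec _ (sysAt n).2).2.2
  g_surj h _ := ⟨Encodable.encode h, Denumerable.ofNat_encode h⟩
  F_mono {m n} h x hx := by
    simp only [List.mem_toFinset, elemsL, List.mem_map, List.mem_range] at hx ⊢
    obtain ⟨a, ha, rfl⟩ := hx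
    exact ⟨a, by omega, rfl⟩
  F_exhaust x := ⟨Encodable.encode x, by
    simp only [List.mem_toFinset, elemsL, List.mem_map, List.mem_range]
    exact ⟨_, Nat.lt_succ_self _, Denumerable.ofNat_encode x⟩⟩

lemma allowedB_tower (n : ℕ) (A : List K) (p : Assign K) :
    allowedB n (stateAt K n).2 A p = true ↔ ((tower K).sys n).allowed A.toFinset (val p) :=
  (sysAt n).2.allowedB_iff A p

/-- `Y` is cut out by the finite patterns that fail the search. -/
lemma mem_Y_iff (y : Config K) :
    y ∈ (tower K).Y ↔ ∀ n (A : List K) (p : Assign K), p ∈ choicesL n A →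
      agreeB n A (val p) y = true → allowedB n (stateAt K n).2 A p = true := by
  refine ⟨fun hy n A p _ h => (allowedB_tower n A p).2
    (((tower K).sys n).congr (agreeB_iff.1 h).symm (hy n _)), fun H n A => ?_⟩
  obtain ⟨p, hp, hpy⟩ := exists_choice n A.toList y
  have := (allowedB_tower n A.toList p).1 (H n A.toList p hp (agreeB_iff.2 hpy))
  rw [Finset.toList_toFinset] at this hpy
  exact ((tower K).sys n).congr hpy this

end Vale.Agent.P193.Action
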