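import Mathlib

/-!
# P193 W2: the interface of a free minimal effective action
-/

namespace Vale.Agent.P193.Action

/-- `a` is a prefix of the sequence `A`. -/
def IsPre (a : List Bool) (A : ℕ → Bool) : Prop := ∀ (i : ℕ) (h : i < a.length), a[i] = A i

/-- The item `(a, bs)` is a joint prefix of `(A, B 0, .., B (k - 1))`. -/
def Matches {k : ℕ} (it : List Bool × List (List Bool)) (A : ℕ → Bool)
    (B : Fin k → ℕ → Bool) : Prop :=
  IsPre it.1 A ∧ ∀ s : Fin k, IsPre (it.2.getD (s : ℕ) []) (B s)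

/-- A nonempty closed set of bit sequences with a free minimal action of `K` that moves bit
positions, cut out effectively; far bits are independent on finitely many group elements. -/
structure EffAction (K : Type) [Group K] {k : ℕ} (g : Fin k → K) where
  /-- The space. -/
  Y : Set (ℕ → Bool)
  /-- The action. -/
  act : K → (ℕ → Bool) → (ℕ → Bool)
  nonempty : Y.Nonempty
  closed : IsClosed Y
  mem : ∀ h, ∀ y ∈ Y, act h y ∈ Y
  one : ∀ y ∈ Y, act 1 y = y
  mul : ∀ h h', ∀ y ∈ Y, act (h * h') y = act h (act h' y)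
  cont : ∀ h j, ∃ i, ∀ y, act h y j = y i
  free : ∀ y ∈ Y, ∀ h, h ≠ 1 → act h y ≠ y
  /-- Every bit is repeated later, at the same place for all points. -/
  sweep : ∀ j N, ∃ i ≥ N, ∀ y ∈ Y, y i = y j
  not_const : ∀ y ∈ Y, ∃ i j, y i ≠ y j
  minimal : ∀ y ∈ Y, ∀ w ∈ Y, ∀ N, ∃ h, ∀ j < N, act h y j = w j
  indep : ∀ Z : Finset K, ∀ y₀ ∈ Y, ∀ N r : ℕ, ∃ i ≥ N, ∀ f : K → Fin r → Bool,
    ∃ y ∈ Y, (∀ j < N, y j = y₀ j) ∧ ∀ z ∈ Z, ∀ t : Fin r, act z⁻¹ y (i + t) = f z t
  /-- The enumeration of forbidden joint prefixes. -/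
  bad : ℕ → Option (List Bool × List (List Bool))
  bad_computable : Computable bad
  bad_length : ∀ n it, bad n = some it → it.2.length = k
  genuine : ∀ (A : ℕ → Bool) (B : Fin k → ℕ → Bool),
    (A ∈ Y ∧ ∀ s, B s = act (g s)⁻¹ A) ↔ ∀ n it, bad n = some it → ¬ Matches it A B

end Vale.Agent.P193.Action
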