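import Mathlib
import Vale.Agent.P193.Action.Build
import Vale.Agent.P193.Action.Spec

/-!
# Colourings as bit sequences

A bit position is a point, a coordinate and which of the colours `1`, `2` is asked. Every block
of positions starts with a run of consecutive coordinates at one fixed point.
-/

namespace Vale.Agent.P193.Action

variable {K : Type} [Group K] [DecidableEq K] [Denumerable K]

/-- One block of positions. -/
def posBlock (K : Type) [Denumerable K] (m : ℕ) : List (K × ℕ × Bool) :=
  [false, true].flatMap fun b => (elemsL K (m + 1)).flatMap fun h =>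
    (List.range (m + 1)).map fun i => (h, i, b)

/-- The first blocks. -/
def posList (K : Type) [Denumerable K] (M : ℕ) : List (K × ℕ × Bool) :=
  (List.range (M + 1)).flatMap (posBlock K)

/-- The position of index `j`. -/
def pos (K : Type) [Denumerable K] (j : ℕ) : K × ℕ × Bool :=
  (posList K j).getD j (Denumerable.ofNat K 0, 0, false)

/-- An index of a position. -/
def idx (x : K × ℕ × Bool) : ℕ := (posList K (max (Encodable.encode x.1) x.2.1)).idxOf x

/-- The colour asked by a bit. -/
def colourOf (b : Bool) : Fin 3 := cond b 2 1

/-- The bits of a colouring. -/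
def enc (y : Config K) (j : ℕ) : Bool := y (pos K j).1 (pos K j).2.1 == colourOf (pos K j).2.2

/-- The colouring of bits. -/
def dec (B : ℕ → Bool) : Config K := fun v i =>
  cond (B (idx (v, i, false))) 1 (cond (B (idx (v, i, true))) 2 0)

/-- The action on bit sequences. -/
def actBits (h : K) (B : ℕ → Bool) (j : ℕ) : Bool :=
  B (idx (h⁻¹ * (pos K j).1, (pos K j).2.1, (pos K j).2.2))

omit [Group K] [DecidableEq K] in
lemma length_posBlock (m : ℕ) : (posBlock K m).length = 2 * ((m + 1) * (m + 1)) := by
  simp [posBlock, List.length_flatMap, elemsL, Function.comp_def]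
  ring

omit [Group K] [DecidableEq K] in
lemma posList_prefix {M N : ℕ} (h : M ≤ N) : posList K M <+: posList K N := by
  induction h with
  | refl => exact List.prefix_refl _
  | step _ ih =>
    refine ih.trans ?_
    rw [posList, posList, List.range_succ (n := _ + 1), List.flatMap_append]
    exact List.prefix_append _ _

omit [Group K] [DecidableEq K] in
lemma lt_length_posList (M : ℕ) : M < (posList K M).length := by
  induction M with
  | zero => simp [posList, length_posBlock]
  | succ M ih =>
    have h := length_posBlock (K := K) (M + 1)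
    simp [posList, List.range_succ (n := M + 1), List.flatMap_append] at ih h ⊢
    nlinarith

omit [Group K] [DecidableEq K] in
lemma pos_eq_getElem {j M : ℕ} (h : j < (posList K M).length) : pos K j = (posList K M)[j] := by
  have hj := lt_length_posList (K := K) j
  rw [pos, List.getD_eq_getElem _ _ hj]
  rcases le_total j M with hle | hle
  · exact (posList_prefix hle).getElem hj
  · exact ((posList_prefix hle).getElem h).symm

omit [Group K] [DecidableEq K] in
lemma mem_posList {x : K × ℕ × Bool} {M : ℕ} (h1 : Encodable.encode x.1 ≤ M) (h2 : x.2.1 ≤ M) :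
    x ∈ posList K M := by
  obtain ⟨v, i, b⟩ := x
  refine List.mem_flatMap.2 ⟨M, by simp, List.mem_flatMap.2 ⟨b, by cases b <;> simp,
    List.mem_flatMap.2 ⟨v, ?_, List.mem_map.2 ⟨i, by simp at h2 ⊢; omega, rfl⟩⟩⟩⟩
  exact List.mem_map.2 ⟨Encodable.encode v, by simp at h1 ⊢; omega, Denumerable.ofNat_encode v⟩

omit [Group K] in
lemma idx_lt (x : K × ℕ × Bool) :
    idx x < (posList K (max (Encodable.encode x.1) x.2.1)).length :=
  List.idxOf_lt_length_iff.2 (mem_posList (le_max_left _ _) (le_max_right _ _))

omit [Group K] in
lemma idx_lt' {x : K × ℕ × Bool} {M : ℕ} (h1 : Encodable.encode x.1 ≤ M) (h2 : x.2.1 ≤ M) :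
    idx x < (posList K M).length :=
  (idx_lt x).trans_le (posList_prefix (max_le h1 h2)).length_le

omit [Group K] in
lemma pos_idx (x : K × ℕ × Bool) : pos K (idx x) = x := by
  rw [pos_eq_getElem (idx_lt x)]
  exact List.getElem_idxOf (idx_lt x)

omit [Group K] in
lemma dec_enc (y : Config K) : dec (enc y) = y := by
  funext v i
  simp only [dec, enc, pos_idx, colourOf]
  generalize y v i = c
  revert c
  decide

lemma actBits_enc (h : K) (y : Config K) : actBits h (enc y) = enc (shift h y) := by
  funext j
  simp [actBits, enc, pos_idx, shift]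

omit [Group K] [DecidableEq K] in
lemma continuous_enc : Continuous (enc : Config K → ℕ → Bool) :=
  continuous_pi fun j => (continuous_of_discreteTopology
    (f := fun c : Fin 3 => c == colourOf (pos K j).2.2)).comp
      ((continuous_apply (pos K j).2.1).comp (continuous_apply (pos K j).1))

omit [Group K] [DecidableEq K] in
lemma length_posList_succ (m : ℕ) :
    (posList K (m + 1)).length = (posList K m).length + (posBlock K (m + 1)).length := by
  simp [posList, List.range_succ (n := m + 1), List.flatMap_append]

omit [Group K] [DecidableEq K] in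
/-- The run at the start of a block. -/
lemma pos_run (m t : ℕ) (ht : t ≤ m + 1) :
    pos K ((posList K m).length + t) = (Denumerable.ofNat K 0, t, false) := by
  have hlen : (posList K m).length + t < (posList K (m + 1)).length := by
    rw [length_posList_succ, length_posBlock]
    nlinarith
  rw [pos_eq_getElem hlen]
  have e : posList K (m + 1) = posList K m ++ posBlock K (m + 1) := by
    simp [posList, List.range_succ (n := m + 1), List.flatMap_append]
  simp only [e]
  rw [List.getElem_append_right (Nat.le_add_right _ _)]
  simp only [Nat.add_sub_cancel_left]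
  have e2 : ∃ L, posBlock K (m + 1) =
      ((List.range (m + 2)).map fun i => (Denumerable.ofNat K 0, i, false)) ++ L :=
    ⟨_, by simp [posBlock, elemsL, List.range_succ_eq_map, List.append_assoc]; rfl⟩
  obtain ⟨L, hL⟩ := e2
  simp only [hL]
  rw [List.getElem_append_left (by simp; omega)]
  simp

omit [Group K] in
/-- Every position occurs again later. -/
lemma exists_later (x : K × ℕ × Bool) (N : ℕ) : ∃ i ≥ N, pos K i = x := by
  set M := max N (max (Encodable.encode x.1) x.2.1)
  have h1 : Encodable.encode x.1 ≤ M := (le_max_left _ _).trans (le_max_right _ _)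
  have h2 : x.2.1 ≤ M := (le_max_right _ _).trans (le_max_right _ _)
  have hx : x ∈ posBlock K (M + 1) := by
    obtain ⟨v, i, b⟩ := x
    simp only at h1 h2
    refine List.mem_flatMap.2 ⟨b, by cases b <;> simp, List.mem_flatMap.2 ⟨v, ?_,
      List.mem_map.2 ⟨i, List.mem_range.2 (by omega), rfl⟩⟩⟩
    exact List.mem_map.2
      ⟨Encodable.encode v, List.mem_range.2 (by omega), Denumerable.ofNat_encode v⟩
  have hlt := List.idxOf_lt_length_iff.2 hx
  refine ⟨(posList K M).length + (posBlock K (M + 1)).idxOf x,
    by have := lt_length_posList (K := K) M; omega, ?_⟩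
  have hlen : (posList K M).length + (posBlock K (M + 1)).idxOf x <
      (posList K (M + 1)).length := by
    rw [length_posList_succ]
    omega
  rw [pos_eq_getElem hlen]
  have e : posList K (M + 1) = posList K M ++ posBlock K (M + 1) := by
    simp [posList, List.range_succ (n := M + 1), List.flatMap_append]
  simp only [e]
  rw [List.getElem_append_right (Nat.le_add_right _ _)]
  simp only [Nat.add_sub_cancel_left]
  exact List.getElem_idxOf hlt

/-! ### Forbidden items -/

/-- The colour read in a prefix. -/
def decA (a : List Bool) (v : K) (i : ℕ) : Fin 3 :=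
  cond ((List.range a.length).any fun j => pos K j == (v, i, false) && a.getD j false) 1
    (cond ((List.range a.length).any fun j => pos K j == (v, i, true) && a.getD j false) 2 0)

/-- The pattern read in a prefix. -/
def pattA (K : Type) [DecidableEq K] [Denumerable K] (n : ℕ) (a : List Bool) : Assign K :=
  (elemsL K n).map fun v => (v, (List.range n).map (decA a v))

/-- No position has two values and no two colours are claimed together. -/
def consistB (K : Type) [DecidableEq K] [Denumerable K] (a : List Bool) : Bool :=
  (List.range a.length).all fun i => (List.range a.length).all fun j =>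
    (!(pos K i == pos K j) || a.getD i false == a.getD j false) &&
      !((pos K i).1 == (pos K j).1 && (pos K i).2.1 == (pos K j).2.1 && !(pos K i).2.2 &&
        (pos K j).2.2 && a.getD i false && a.getD j false)

/-- All complete windows of the prefix are allowed. -/
def levelsB (K : Type) [Group K] [DecidableEq K] [Denumerable K] (a : List Bool) : Bool :=
  (List.range a.length).all fun n => decide (a.length < (posList K n).length) ||
    allowedB n (stateAt K n).2 (elemsL K n) (pattA K n a)

/-- The second part of an item disagrees with the translate of the first. -/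
def shiftBad (gs : List K) (a : List Bool) (bs : List (List Bool)) : Bool :=
  (List.range gs.length).any fun s => (List.range (bs.getD s []).length).any fun j =>
    (List.range a.length).any fun i =>
      (pos K i == (gs.getD s 1 * (pos K j).1, (pos K j).2.1, (pos K j).2.2)) &&
        !(a.getD i false == (bs.getD s []).getD j false)

/-- An item is forbidden. -/
def forbidden (gs : List K) (it : List Bool × List (List Bool)) : Bool :=
  it.2.length == gs.length && (!(consistB K it.1 && levelsB K it.1) || shiftBad gs it.1 it.2)

/-- The enumeration of forbidden items. -/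
def badOf (gs : List K) (c : ℕ) : Option (List Bool × List (List Bool)) :=
  (Encodable.decode (α := List Bool × List (List Bool)) c).bind fun it =>
    cond (forbidden gs it) (some it) none

lemma badOf_eq_some {gs : List K} {c : ℕ} {it : List Bool × List (List Bool)}
    (h : badOf gs c = some it) : forbidden gs it = true := by
  obtain ⟨x, -, hx⟩ := Option.bind_eq_some_iff.1 h
  cases hf : forbidden gs x <;> rw [hf] at hx <;> simp at hx
  exact hx ▸ hf

lemma badOf_encode {gs : List K} {it : List Bool × List (List Bool)}
    (h : forbidden gs it = true) : badOf gs (Encodable.encode it) = some it := by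
  simp [badOf, h]

lemma isPre_map (A : ℕ → Bool) (n : ℕ) : IsPre ((List.range n).map A) A := fun i h => by
  simp

lemma IsPre.getD {a : List Bool} {A : ℕ → Bool} (h : IsPre a A) {i : ℕ} (hi : i < a.length) :
    a.getD i false = A i := by
  rw [List.getD_eq_getElem _ _ hi]
  exact h i hi

omit [Group K] in
lemma decA_of_pre {a : List Bool} {y : Config K} (h : IsPre a (enc y)) {v : K} {i : ℕ}
    (h1 : idx (v, i, false) < a.length) (h2 : idx (v, i, true) < a.length) :
    decA a v i = y v i := by
  have key : ∀ b, idx (v, i, b) < a.length →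
      ((List.range a.length).any fun j => pos K j == (v, i, b) && a.getD j false) =
        (y v i == colourOf b) := by
    intro b hb
    rw [Bool.eq_iff_iff, List.any_eq_true]
    refine ⟨fun ⟨j, hj, hh⟩ => ?_, fun hy => ⟨idx (v, i, b), List.mem_range.2 hb, ?_⟩⟩
    · rw [Bool.and_eq_true, beq_iff_eq, h.getD (List.mem_range.1 hj)] at hh
      simpa [enc, hh.1] using hh.2
    · rw [Bool.and_eq_true, h.getD hb, enc, pos_idx]
      exact ⟨beq_self_eq_true _, hy⟩
  rw [decA, key _ h1, key _ h2, colourOf, colourOf]
  generalize y v i = c
  revert c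
  decide

lemma agree_pattA {a : List Bool} {y : Config K} (h : IsPre a (enc y)) {n : ℕ}
    (hn : (posList K n).length ≤ a.length) :
    Agree n (elemsL K n).toFinset (val (pattA K n a)) y := by
  intro v hv i hi
  have hv' := List.mem_toFinset.1 hv
  have henc : Encodable.encode v ≤ n := by
    obtain ⟨e, he, rfl⟩ := List.mem_map.1 hv'
    simpa using (List.mem_range.1 he).le
  have key : ∀ L : List K, v ∈ L →
      val (L.map fun v => (v, (List.range n).map (decA a v))) v i = decA a v i := by
    intro L hL
    induction L with
    | nil => simp at hL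
    | cons w L ih =>
      rw [List.map_cons, val_cons]
      by_cases hw : w = v
      · subst hw
        rw [if_pos rfl]
        simp [List.getD_eq_getElem?_getD, hi]
      · rw [if_neg hw]
        exact ih ((List.mem_cons.1 hL).resolve_left (Ne.symm hw))
  rw [pattA, key _ hv']
  exact decA_of_pre h ((idx_lt' henc hi.le).trans_le hn) ((idx_lt' henc hi.le).trans_le hn)

omit [Group K] in
lemma consistB_of_enc {a : List Bool} {y : Config K} (h : IsPre a (enc y)) :
    consistB K a = true := by
  simp only [consistB, List.all_eq_true, List.mem_range]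
  intro i hi j hj
  rw [h.getD hi, h.getD hj]
  simp only [enc]
  rcases pos K i with ⟨v, m, b⟩
  rcases pos K j with ⟨w, m', b'⟩
  simp only [Bool.and_eq_true, Bool.or_eq_true, Bool.not_eq_true', beq_eq_false_iff_ne,
    beq_iff_eq]
  refine ⟨(em ((v, m, b) = (w, m', b'))).symm.imp_right fun e => ?_, ?_⟩
  · simp only [Prod.mk.injEq] at e
    rw [e.1, e.2.1, e.2.2]
  · by_cases hvw : v = w ∧ m = m'
    · obtain ⟨rfl, rfl⟩ := hvw
      generalize y v m = c
      revert c
      cases b <;> cases b' <;> simp [colourOf]
    · simp only [not_and] at hvw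
      by_cases hv : v = w
      · simp [hv, hvw hv]
      · simp [hv]

lemma levelsB_of_enc {a : List Bool} {y : Config K} (hy : y ∈ (tower K).Y)
    (h : IsPre a (enc y)) : levelsB K a = true := by
  simp only [levelsB, List.all_eq_true, List.mem_range, Bool.or_eq_true, decide_eq_true_eq]
  intro n _
  refine (lt_or_ge a.length (posList K n).length).imp_right fun hn => ?_
  rw [allowedB_tower]
  exact ((tower K).sys n).congr (agree_pattA h hn).symm (hy n _)

lemma mem_image_enc {A : ℕ → Bool}
    (h : ∀ L, consistB K ((List.range L).map A) = true ∧ levelsB K ((List.range L).map A) = true) :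
    A ∈ enc '' (tower K).Y := by
  set y : Config K := dec A
  have hc : ∀ i j, (pos K i = pos K j → A i = A j) ∧
      ((pos K i).1 = (pos K j).1 → (pos K i).2.1 = (pos K j).2.1 → (pos K i).2.2 = false →
        (pos K j).2.2 = true → ¬(A i = true ∧ A j = true)) := by
    intro i j
    have h1 := (h (max i j + 1)).1
    simp only [consistB, List.all_eq_true, List.mem_range, List.length_map, List.length_range]
      at h1
    have h2 := h1 i (by omega) j (by omega)
    rw [IsPre.getD (isPre_map A _) (by simp), IsPre.getD (isPre_map A _) (by simp)] at h2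
    simp only [Bool.and_eq_true, Bool.or_eq_true, Bool.not_eq_true', beq_eq_false_iff_ne,
      beq_iff_eq] at h2
    exact ⟨fun e => h2.1.resolve_left (fun hne => hne e), fun e1 e2 e3 e4 hh => by
      have h3 := h2.2
      simp [e1, e2, e3, e4, hh.1, hh.2] at h3⟩
  have henc : enc y = A := by
    funext j
    rcases hj : pos K j with ⟨v, i, b⟩
    have hA : A j = A (idx (v, i, b)) := (hc j _).1 (by rw [hj, pos_idx])
    rw [hA]
    simp only [enc, hj, y, dec, colourOf]
    have hx := (hc (idx (v, i, false)) (idx (v, i, true))).2 (by simp [pos_idx]) (by simp [pos_idx])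
      (by simp [pos_idx]) (by simp [pos_idx])
    cases h1 : A (idx (v, i, false)) <;> cases h2 : A (idx (v, i, true)) <;> cases b <;>
      simp_all
  refine ⟨y, fun n F => ?_, henc⟩
  set M := max n (F.sup fun v => Encodable.encode v + 1)
  set L := (posList K M).length + M + 1
  have h2 := (h L).2
  simp only [levelsB, List.all_eq_true, List.mem_range, Bool.or_eq_true, decide_eq_true_eq,
    List.length_map, List.length_range] at h2
  have h3 := (h2 M (by omega)).resolve_left (by omega)
  rw [allowedB_tower] at h3
  have h4 := ((tower K).sys M).congr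
    (agree_pattA (y := y) (by rw [henc]; exact isPre_map A L) (by simp; omega)) h3
  refine ((tower K).sys n).mono (fun v hv => ?_) ((tower K).allowed_of_le (le_max_left _ _) h4)
  have hle : Encodable.encode v + 1 ≤ M :=
    (Finset.le_sup (f := fun v => Encodable.encode v + 1) hv).trans (le_max_right n _)
  exact List.mem_toFinset.2 (List.mem_map.2
    ⟨Encodable.encode v, List.mem_range.2 (by omega), Denumerable.ofNat_encode v⟩)

omit [DecidableEq K] [Denumerable K] in
lemma getD_ofFn {k : ℕ} (g : Fin k → K) (s : Fin k) : (List.ofFn g).getD (s : ℕ) 1 = g s := by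
  simp [List.getD_eq_getElem?_getD]

lemma genuine_bits {k : ℕ} (g : Fin k → K) (A : ℕ → Bool) (B : Fin k → ℕ → Bool) :
    (A ∈ enc '' (tower K).Y ∧ ∀ s, B s = actBits (g s)⁻¹ A) ↔
      ∀ c it, badOf (List.ofFn g) c = some it → ¬ Matches it A B := by
  constructor
  · rintro ⟨⟨y, hy, rfl⟩, hB⟩ c it hc ⟨hA, hBs⟩
    have hf := badOf_eq_some hc
    simp only [forbidden, consistB_of_enc hA, levelsB_of_enc hy hA, Bool.and_self, Bool.not_true,
      Bool.false_or, Bool.and_eq_true, shiftBad, List.any_eq_true, List.mem_range, beq_iff_eq,
      Bool.not_eq_true', beq_eq_false_iff_ne, List.length_ofFn] at hf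
    obtain ⟨-, s, hs, j, hj, i, hi, hpos, hne⟩ := hf
    refine hne ?_
    rw [hA.getD hi, (hBs ⟨s, hs⟩).getD hj, hB, actBits_enc]
    rw [getD_ofFn g ⟨s, hs⟩] at hpos
    simp [enc, shift, hpos]
  · intro h
    have hmem : A ∈ enc '' (tower K).Y := mem_image_enc fun L => by
      by_contra hne
      rw [← Bool.and_eq_true, Bool.not_eq_true] at hne
      refine h _ ((List.range L).map A, List.replicate k []) (badOf_encode ?_)
        ⟨isPre_map A L, fun s i hi => ?_⟩
      · simp [forbidden, hne]
      · simp at hi
    refine ⟨hmem, fun s => funext fun j => ?_⟩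
    obtain ⟨y, hy, rfl⟩ := hmem
    by_contra hne
    rw [actBits_enc] at hne
    set x : K × ℕ × Bool := (g s * (pos K j).1, (pos K j).2.1, (pos K j).2.2)
    refine h _ ((List.range (idx x + 1)).map (enc y),
      List.ofFn fun s' => (List.range (j + 1)).map (B s')) (badOf_encode ?_) ⟨isPre_map _ _, ?_⟩
    · have hb : ((List.ofFn fun s' => (List.range (j + 1)).map (B s')).getD (s : ℕ) []) =
          (List.range (j + 1)).map (B s) := by
        simp [List.getD_eq_getElem?_getD]
      simp only [forbidden, shiftBad, Bool.and_eq_true, Bool.or_eq_true, List.any_eq_true,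
        List.mem_range, beq_iff_eq, List.length_ofFn, true_and]
      refine Or.inr ⟨(s : ℕ), s.2, j, (by rw [hb]; simp), idx x, by simp, ?_, ?_⟩
      · rw [pos_idx, getD_ofFn]
      · rw [hb, IsPre.getD (isPre_map _ _) (by simp), IsPre.getD (isPre_map _ _) (by simp)]
        rw [Bool.not_eq_true', beq_eq_false_iff_ne]
        intro e
        refine hne (e.symm.trans ?_)
        simp [enc, shift, pos_idx, x]
    · intro s'
      simpa [List.getD_eq_getElem?_getD] using isPre_map (B s') (j + 1)

lemma indep_bits (Z : Finset K) {y₀ : ℕ → Bool} (hy₀ : y₀ ∈ enc '' (tower K).Y) (N r : ℕ) :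
    ∃ i ≥ N, ∀ f : K → Fin r → Bool, ∃ y ∈ enc '' (tower K).Y, (∀ j < N, y j = y₀ j) ∧
      ∀ z ∈ Z, ∀ t : Fin r, actBits z⁻¹ y (i + t) = f z t := by
  obtain ⟨y0, hy0, rfl⟩ := hy₀
  set h0 : K := Denumerable.ofNat K 0
  set W : Finset K := (Finset.range N).image (fun j => (pos K j).1) ∪ Z.image (· * h0)
  set n0 : ℕ := max ((Finset.range N).sup fun j => (pos K j).2.1 + 1)
    (max (W.sup fun v => Encodable.encode v + 1)
      ((W ×ˢ W).sup fun x => Encodable.encode (x.1⁻¹ * x.2) + 1))
  have hW : W ⊆ (tower K).F n0 := fun v hv => by
    have hle : Encodable.encode v + 1 ≤ n0 :=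
      ((Finset.le_sup (f := fun v => Encodable.encode v + 1) hv).trans (le_max_left _ _)).trans
        (le_max_right _ _)
    exact List.mem_toFinset.2 (List.mem_map.2
      ⟨Encodable.encode v, List.mem_range.2 (by omega), Denumerable.ofNat_encode v⟩)
  have hedge : ∀ m ≥ n0, ∀ v ∈ W, (tower K).g m ≠ 1 → v * (tower K).g m ∉ W := by
    intro m hm v hv _ hvg
    have hle : Encodable.encode (v⁻¹ * (v * (tower K).g m)) + 1 ≤ n0 :=
      ((Finset.le_sup (f := fun x : K × K => Encodable.encode (x.1⁻¹ * x.2) + 1)
        (Finset.mem_product.2 ⟨hv, hvg⟩ : (v, v * (tower K).g m) ∈ W ×ˢ W)).trans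
          (le_max_right (W.sup fun v => Encodable.encode v + 1) _)).trans (le_max_right _ _)
    simp only [inv_mul_cancel_left, tower, Denumerable.encode_ofNat] at hle
    omega
  refine ⟨(posList K (n0 + r + N)).length + n0,
    by have := lt_length_posList (K := K) (n0 + r + N); omega, fun f => ?_⟩
  set p : Config K := fun v i => if i < n0 then y0 v i else
    if h : i - n0 < r then cond (f (v * h0⁻¹) ⟨i - n0, h⟩) 1 0 else 0
  obtain ⟨y, hy, hyp⟩ := (tower K).exists_extension hW hedge (p := p)
    (((tower K).sys n0).congr (fun v _ i hi => by simp [p, hi]) (hy0 n0 W))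
  refine ⟨enc y, ⟨y, hy, rfl⟩, fun j hj => ?_, fun z hz t => ?_⟩
  · have hm : (pos K j).1 ∈ W :=
      Finset.mem_union_left _ (Finset.mem_image.2 ⟨j, Finset.mem_range.2 hj, rfl⟩)
    have hi : (pos K j).2.1 + 1 ≤ n0 :=
      (Finset.le_sup (f := fun j => (pos K j).2.1 + 1) (Finset.mem_range.2 hj)).trans
        (le_max_left _ _)
    simp only [enc, hyp _ hm, p]
    rw [if_pos (by omega)]
  · rw [actBits_enc, Nat.add_assoc]
    simp only [enc, shift, inv_inv]
    rw [pos_run _ _ (by omega)]
    have hm : z * h0 ∈ W := Finset.mem_union_right _ (Finset.mem_image_of_mem _ hz)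
    show (y (z * h0) (n0 + (t : ℕ)) == colourOf false) = f z t
    rw [hyp _ hm]
    simp only [p]
    rw [if_neg (by omega), dif_pos (by omega)]
    have ht : (⟨n0 + (t : ℕ) - n0, by omega⟩ : Fin r) = t := by ext; simp
    rw [mul_inv_cancel_right, ht]
    cases f z t <;> simp [colourOf]

/-- The action, given that the enumeration is computable. -/
noncomputable def effAction {k : ℕ} (g : Fin k → K) (hc : Computable (badOf (List.ofFn g))) :
    EffAction K g where
  Y := enc '' (tower K).Y
  act := actBits
  nonempty := (tower K).Y_nonempty.image enc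
  closed := ((tower K).isClosed_Y.isCompact.image continuous_enc).isClosed
  mem h y hy := by
    obtain ⟨y, hy, rfl⟩ := hy
    exact ⟨shift h y, (tower K).shift_mem h hy, (actBits_enc h y).symm⟩
  one y hy := by
    obtain ⟨y, -, rfl⟩ := hy
    rw [actBits_enc]
    exact congrArg enc (funext fun v => by simp [shift])
  mul h h' y hy := by
    obtain ⟨y, -, rfl⟩ := hy
    rw [actBits_enc, actBits_enc, actBits_enc]
    exact congrArg enc (funext fun v => by simp [shift, mul_assoc])
  cont h j := ⟨_, fun _ => rfl⟩
  free y hy h hh := by
    obtain ⟨y, hy, rfl⟩ := hy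
    intro he
    rw [actBits_enc] at he
    exact (tower K).free hy hh (by simpa only [dec_enc] using congrArg (dec (K := K)) he)
  sweep j N := by
    obtain ⟨i, hi, hp⟩ := exists_later (pos K j) N
    refine ⟨i, hi, fun y hy => ?_⟩
    obtain ⟨y, -, rfl⟩ := hy
    simp only [enc, hp]
  not_const y hy := by
    obtain ⟨y, hy, rfl⟩ := hy
    have : Infinite K := Infinite.of_injective _ (Denumerable.eqv K).symm.injective
    obtain ⟨h, hh⟩ := exists_ne (1 : K)
    obtain ⟨n, hn⟩ := (tower K).g_surj h hh
    have hne : y 1 n ≠ y h n := by
      have := ((tower K).addColour_of_mem hy n {1, h}).2 (hn ▸ hh) 1 (by simp) (by simp [hn])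
      rwa [one_mul, hn] at this
    by_contra hc
    push Not at hc
    refine hne ?_
    have key : ∀ v b v' b', (y v n == colourOf b) = (y v' n == colourOf b') := fun v b v' b' => by
      simpa only [enc, pos_idx] using hc (idx (v, n, b)) (idx (v', n, b'))
    have h1 := key 1 false 1 true
    have h2 := key 1 false h false
    have h3 := key 1 false h true
    revert h1 h2 h3
    generalize y 1 n = a, y h n = c
    revert a c
    decide
  minimal y hy w hw N := by
    obtain ⟨y, hy, rfl⟩ := hy
    obtain ⟨w, hw, rfl⟩ := hw
    obtain ⟨h, hh⟩ := (tower K).minimal hy hw ((Finset.range N).image fun j => (pos K j).1)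
      ((Finset.range N).sup fun j => (pos K j).2.1 + 1)
    refine ⟨h, fun j hj => ?_⟩
    rw [actBits_enc]
    simp only [enc]
    rw [hh _ (Finset.mem_image.2 ⟨j, Finset.mem_range.2 hj, rfl⟩) _
      (Nat.lt_of_succ_le (Finset.le_sup (f := fun j => (pos K j).2.1 + 1) (Finset.mem_range.2 hj)))]
  indep Z _ hy N r := indep_bits Z hy N r
  bad := badOf (List.ofFn g)
  bad_computable := hc
  bad_length n it h := by
    have := badOf_eq_some h
    simp only [forbidden, Bool.and_eq_true, beq_iff_eq, List.length_ofFn] at this
    exact this.1
  genuine A B := genuine_bits g A B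

end Vale.Agent.P193.Action
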