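import Mathlib

/-!
# List combinators preserve computability
-/

namespace Vale.Agent.P193.Action.CompList

open Computable

variable {α β σ : Type*} [Primcodable α] [Primcodable β] [Primcodable σ]

lemma eq_bool [BEq β] [LawfulBEq β] {f g : α → β} (hf : Computable f) (hg : Computable g) :
    Computable fun a => f a == g a := by
  have : DecidableEq β := fun a b => decidable_of_iff _ (Encodable.encode_injective.eq_iff (a := a) (b := b))
  exact (Primrec.eq.decide.to_comp.comp hf hg).of_eq fun a => by
    rw [Bool.eq_iff_iff, decide_eq_true_eq, beq_iff_eq]

lemma lt_bool {f g : α → ℕ} (hf : Computable f) (hg : Computable g) :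
    Computable fun a => decide (f a < g a) := Primrec.nat_lt.decide.to_comp.comp hf hg

lemma and_bool {f g : α → Bool} (hf : Computable f) (hg : Computable g) :
    Computable fun a => f a && g a := Primrec.and.to_comp.comp hf hg

lemma or_bool {f g : α → Bool} (hf : Computable f) (hg : Computable g) :
    Computable fun a => f a || g a := Primrec.or.to_comp.comp hf hg

lemma not_bool {f : α → Bool} (hf : Computable f) : Computable fun a => !f a :=
  Primrec.not.to_comp.comp hf

lemma getD_list {f : α → List β} {g : α → ℕ} (hf : Computable f) (hg : Computable g) (d : β) :
    Computable fun a => (f a).getD (g a) d := (Primrec.list_getD d).to_comp.comp hf hg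

lemma range_list {f : α → ℕ} (hf : Computable f) : Computable fun a => List.range (f a) :=
  Primrec.list_range.to_comp.comp hf

lemma foldl_list {f : α → List β} {g : α → σ} {h : α → σ × β → σ} (hf : Computable f)
    (hg : Computable g) (hh : Computable₂ h) :
    Computable fun a => (f a).foldl (fun s b => h a (s, b)) (g a) := by
  have step : Computable₂ fun (a : α) (p : ℕ × σ) =>
      Option.casesOn (motive := fun _ => σ) ((f a)[p.1]?) p.2 fun b => h a (p.2, b) :=
    Computable.option_casesOn (list_getElem?.comp (hf.comp fst) (fst.comp snd)) (snd.comp snd)
      (hh.comp (fst.comp fst) ((snd.comp (snd.comp fst)).pair snd)).to₂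
  refine (nat_rec (list_length.comp hf) hg step).of_eq fun a => ?_
  suffices H : ∀ n ≤ (f a).length,
      Nat.rec (motive := fun _ => σ) (g a) (fun i s =>
        Option.casesOn (motive := fun _ => σ) ((f a)[i]?) s fun b => h a (s, b)) n =
      ((f a).take n).foldl (fun s b => h a (s, b)) (g a) by
    simpa using H _ le_rfl
  intro n hn
  induction n with
  | zero => simp
  | succ n ih =>
    rw [List.take_add_one, List.foldl_append]
    simp only [List.getElem?_eq_getElem (Nat.lt_of_succ_le hn)]
    rw [ih (Nat.le_of_succ_le hn)]
    simp

lemma map_list {f : α → List β} {g : α → β → σ} (hf : Computable f) (hg : Computable₂ g) :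
    Computable fun a => (f a).map (g a) := by
  refine (foldl_list hf (const ([] : List σ))
    (list_concat.comp (fst.comp snd) (hg.comp fst (snd.comp snd))).to₂).of_eq fun a => ?_
  suffices H : ∀ (l : List β) (acc : List σ),
      l.foldl (fun s b => s ++ [g a b]) acc = acc ++ l.map (g a) by simpa using H (f a) []
  intro l
  induction l with
  | nil => simp
  | cons b l ih => intro acc; simp [ih]

lemma flatMap_list {f : α → List β} {g : α → β → List σ} (hf : Computable f) (hg : Computable₂ g) :
    Computable fun a => (f a).flatMap (g a) :=
  (Primrec.list_flatten.to_comp.comp (map_list hf hg)).of_eq fun _ => rfl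

lemma any_list {f : α → List β} {g : α → β → Bool} (hf : Computable f) (hg : Computable₂ g) :
    Computable fun a => (f a).any (g a) := by
  refine (foldl_list hf (const false)
    (Primrec.or.to_comp.comp (fst.comp snd) (hg.comp fst (snd.comp snd))).to₂).of_eq fun a => ?_
  suffices H : ∀ (l : List β) (acc : Bool),
      l.foldl (fun s b => s || g a b) acc = (acc || l.any (g a)) by simpa using H (f a) false
  intro l
  induction l with
  | nil => simp
  | cons b l ih => intro acc; simp [ih, Bool.or_assoc]

lemma all_list {f : α → List β} {g : α → β → Bool} (hf : Computable f) (hg : Computable₂ g) :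
    Computable fun a => (f a).all (g a) := by
  refine (foldl_list hf (const true)
    (Primrec.and.to_comp.comp (fst.comp snd) (hg.comp fst (snd.comp snd))).to₂).of_eq fun a => ?_
  suffices H : ∀ (l : List β) (acc : Bool),
      l.foldl (fun s b => s && g a b) acc = (acc && l.all (g a)) by simpa using H (f a) true
  intro l
  induction l with
  | nil => simp
  | cons b l ih => intro acc; simp [ih, Bool.and_assoc]

lemma filter_list {f : α → List β} {g : α → β → Bool} (hf : Computable f) (hg : Computable₂ g) :
    Computable fun a => (f a).filter (g a) := by
  refine (flatMap_list hf (g := fun a b => bif g a b then [b] else [])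
    ((Computable.cond hg (list_cons.comp snd (const [])) (const [])).to₂)).of_eq fun a => ?_
  induction f a with
  | nil => rfl
  | cons b l ih =>
    rw [List.flatMap_cons, ih, List.filter_cons]
    cases g a b <;> simp

lemma find_list {f : α → List β} {g : α → β → Bool} (hf : Computable f) (hg : Computable₂ g) :
    Computable fun a => (f a).find? (g a) :=
  (Primrec.list_head?.to_comp.comp (filter_list hf hg)).of_eq fun _ => List.head?_filter

end Vale.Agent.P193.Action.CompList
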