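import Mathlib
import Vale.Agent.P193.Action.CompList
import Vale.Agent.P193.Action.Bits

/-!
# The enumeration of forbidden items is computable
-/

namespace Vale.Agent.P193.Action

open Computable CompList

variable {K : Type} [Group K] [DecidableEq K] [Denumerable K]
variable {α : Type} [Primcodable α]

omit [Group K] [DecidableEq K] in
lemma comp_elemsL {n : α → ℕ} (hn : Computable n) : Computable fun a => elemsL K (n a) :=
  map_list (range_list hn) ((Computable.ofNat K).comp snd).to₂

omit [Group K] in
lemma comp_memB {x : α → K} {A : α → List K} (hx : Computable x) (hA : Computable A) :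
    Computable fun a => memB (x a) (A a) :=
  any_list hA (eq_bool snd (hx.comp fst)).to₂

lemma comp_val {q : α → Assign K} {v : α → K} {i : α → ℕ} (hq : Computable q) (hv : Computable v)
    (hi : Computable i) : Computable fun a => val (q a) (v a) (i a) :=
  getD_list (snd.comp (option_getD (find_list hq (eq_bool (fst.comp snd) (hv.comp fst)).to₂)
    (const (1, [])))) hi 0

variable (hm : Computable₂ fun a b : K => a * b) (hI : Computable fun a : K => a⁻¹)

include hm in
omit [DecidableEq K] in
lemma comp_prodL {A B : α → List K} (hA : Computable A) (hB : Computable B) :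
    Computable fun a => prodL (A a) (B a) :=
  flatMap_list hA (map_list (hB.comp fst) (hm.comp (snd.comp fst) snd).to₂).to₂

include hI in
omit [DecidableEq K] in
lemma comp_invL {A : α → List K} (hA : Computable A) : Computable fun a => invL (A a) :=
  map_list hA (hI.comp snd).to₂

include hm hI

omit [DecidableEq K] in
lemma comp_cL {G S : α → List K} (hG : Computable G) (hS : Computable S) :
    Computable fun a => cL (G a) (S a) := comp_prodL hm hG (comp_invL hI hS)

omit [DecidableEq K] in
lemma comp_dL {G S : α → List K} (hG : Computable G) (hS : Computable S) :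
    Computable fun a => dL (G a) (S a) :=
  comp_prodL hm (comp_prodL hm hS hG) (comp_invL hI hS)

omit [DecidableEq K] in
lemma comp_eL {G S : α → List K} (hG : Computable G) (hS : Computable S) :
    Computable fun a => eL (G a) (S a) := comp_prodL hm (comp_cL hm hI hG hS) (comp_dL hm hI hG hS)

omit [DecidableEq K] in
lemma comp_tL {G S : α → List K} (hG : Computable G) (hS : Computable S) :
    Computable fun a => tL (G a) (S a) :=
  list_cons.comp (const 1)
    (list_append.comp (comp_eL hm hI hG hS) (comp_prodL hm (comp_eL hm hI hG hS) hS))

omit [DecidableEq K] in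
lemma comp_gapL {G S : α → List K} (hG : Computable G) (hS : Computable S) :
    Computable fun a => gapL (G a) (S a) :=
  comp_prodL hm (comp_prodL hm (comp_tL hm hI hG hS)
    (list_append.comp hG (comp_dL hm hI hG hS))) (comp_invL hI (comp_tL hm hI hG hS))

omit hm hI in
omit [Group K] [DecidableEq K] in
lemma comp_subsL {A : α → List K} (hA : Computable A) : Computable fun a => subsL (A a) :=
  foldl_list hA (const [[]]) (list_append.comp (fst.comp snd)
    (map_list (fst.comp snd) (list_cons.comp (snd.comp (snd.comp fst)) snd).to₂)).to₂

omit hm hI in
lemma comp_rowsL {n : α → ℕ} (hn : Computable n) : Computable fun a => rowsL (n a) :=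
  nat_rec hn (const [[]]) (flatMap_list (snd.comp snd)
    (map_list (const [0, 1, 2]) (list_cons.comp snd (snd.comp fst)).to₂).to₂).to₂

omit hm hI in
omit [Group K] [DecidableEq K] in
lemma comp_choicesL {n : α → ℕ} {A : α → List K} (hn : Computable n) (hA : Computable A) :
    Computable fun a => choicesL (n a) (A a) :=
  foldl_list hA (const [[]]) (flatMap_list (fst.comp snd)
    (map_list (comp_rowsL (hn.comp (fst.comp fst)))
      (list_cons.comp ((snd.comp (snd.comp (fst.comp fst))).pair snd) (snd.comp fst)).to₂).to₂).to₂

omit hm hI in
lemma comp_agreeB {n : α → ℕ} {A : α → List K} {p q : α → Assign K} (hn : Computable n)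
    (hA : Computable A) (hp : Computable p) (hq : Computable q) :
    Computable fun a => agreeB (n a) (A a) (val (p a)) (val (q a)) :=
  all_list hA (all_list (range_list (hn.comp fst))
    (eq_bool (comp_val (hp.comp (fst.comp fst)) (snd.comp fst) snd)
      (comp_val (hq.comp (fst.comp fst)) (snd.comp fst) snd)).to₂).to₂

omit hI in
lemma comp_properB {n : α → ℕ} {g : α → K} {A : α → List K} {q : α → Assign K} (hn : Computable n)
    (hg : Computable g) (hA : Computable A) (hq : Computable q) :
    Computable fun a => properB (n a) (g a) (A a) (val (q a)) := by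
  have hvg : Computable fun x : α × K => x.2 * g x.1 := hm.comp snd (hg.comp fst)
  exact or_bool (eq_bool hg (const 1))
    (all_list hA (or_bool (not_bool (comp_memB hvg (hA.comp fst)))
      (not_bool (eq_bool (comp_val (hq.comp fst) snd (hn.comp fst))
        (comp_val (hq.comp fst) hvg (hn.comp fst))))).to₂)

lemma comp_sepB {D C : α → List K} (hD : Computable D) (hC : Computable C) :
    Computable fun a => sepB (D a) (C a) :=
  all_list hC (all_list (hC.comp fst)
    (or_bool (eq_bool (snd.comp fst) snd)
      (not_bool (comp_memB (hm.comp (hI.comp (snd.comp fst)) snd) (hD.comp (fst.comp fst))))).to₂).to₂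

lemma comp_coverB {D U C : α → List K} (hD : Computable D) (hU : Computable U) (hC : Computable C) :
    Computable fun a => coverB (D a) (U a) (C a) :=
  all_list hU (any_list (hC.comp fst)
    (comp_memB (hm.comp (hI.comp snd) (snd.comp fst)) (hD.comp (fst.comp fst))).to₂).to₂

omit hI in
lemma comp_blockB {n : α → ℕ} {S C : α → List K} {P q : α → Assign K} (hn : Computable n)
    (hS : Computable S) (hC : Computable C) (hP : Computable P) (hq : Computable q) :
    Computable fun a => blockB (n a) (S a) (C a) (val (P a)) (val (q a)) :=
  all_list hC (all_list (hS.comp fst) (all_list (range_list (hn.comp (fst.comp fst)))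
    (eq_bool (comp_val (hq.comp (fst.comp (fst.comp fst)))
        (hm.comp (snd.comp (fst.comp fst)) (snd.comp fst)) snd)
      (comp_val (hP.comp (fst.comp (fst.comp fst))) (snd.comp fst) snd)).to₂).to₂).to₂

lemma comp_levB {l : α → Lev K} {A : α → List K} {q : α → Assign K} (hl : Computable l)
    (hA : Computable A) (hq : Computable q) :
    Computable fun a => levB (l a) (A a) (val (q a)) := by
  have hi : Computable fun a => (l a).1.1 := (fst.comp fst).comp hl
  have hg : Computable fun a => (l a).1.2 := (snd.comp fst).comp hl
  have hG : Computable fun a => (l a).2.1 := (fst.comp snd).comp hl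
  have hS : Computable fun a => (l a).2.2.1 := (fst.comp (snd.comp snd)).comp hl
  have hP : Computable fun a => (l a).2.2.2 := (snd.comp (snd.comp snd)).comp hl
  have hD := comp_dL hm hI hG hS
  exact and_bool
    (any_list (comp_subsL (comp_prodL hm hA (comp_eL hm hI hG hS)))
      (and_bool (and_bool (comp_sepB hm hI (hD.comp fst) snd)
        (comp_coverB hm hI (hD.comp fst)
          ((comp_prodL hm hA (comp_cL hm hI hG hS)).comp fst) snd))
        (comp_blockB hm ((Computable.succ.comp hi).comp fst) (hS.comp fst) snd (hP.comp fst)
          (hq.comp fst))).to₂)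
    (comp_properB hm hi hg (comp_prodL hm hA (comp_tL hm hI hG hS)) hq)

omit hm hI in
omit [Denumerable K] in
lemma check_eq_foldl (ls : List (Lev K)) (A : List K) (q : Config K) :
    check ls A q = (ls.foldl (fun s l =>
      (prodL s.1 (tL l.2.1 l.2.2.1), s.2 && levB l s.1 q)) (A, true)).2 := by
  suffices H : ∀ b, (ls.foldl (fun s l =>
      (prodL s.1 (tL l.2.1 l.2.2.1), s.2 && levB l s.1 q)) (A, b)).2 = (b && check ls A q) by
    simpa using (H true).symm
  induction ls generalizing A with
  | nil => simp [check]
  | cons l ls ih => intro b; simp [check, ih, Bool.and_assoc]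

omit hm hI in
omit [DecidableEq K] [Denumerable K] in
lemma domL_eq_foldl (ls : List (Lev K)) (A : List K) :
    domL ls A = ls.foldl (fun A l => prodL A (tL l.2.1 l.2.2.1)) A := by
  induction ls generalizing A with
  | nil => rfl
  | cons l ls ih => simp [domL, ih]

lemma comp_check {ls : α → List (Lev K)} {A : α → List K} {q : α → Assign K}
    (hls : Computable ls) (hA : Computable A) (hq : Computable q) :
    Computable fun a => check (ls a) (A a) (val (q a)) :=
  (snd.comp (foldl_list hls (hA.pair (const true))
    ((comp_prodL hm (fst.comp (fst.comp snd))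
        (comp_tL hm hI (fst.comp (snd.comp (snd.comp snd)))
          (fst.comp (snd.comp (snd.comp (snd.comp snd)))))).pair
      (and_bool (snd.comp (fst.comp snd))
        (comp_levB hm hI (snd.comp snd) (fst.comp (fst.comp snd)) (hq.comp fst)))).to₂)).of_eq
    fun a => (check_eq_foldl (ls a) (A a) (val (q a))).symm

omit [DecidableEq K] in
lemma comp_domL {ls : α → List (Lev K)} {A : α → List K} (hls : Computable ls)
    (hA : Computable A) : Computable fun a => domL (ls a) (A a) :=
  (foldl_list hls hA
    (comp_prodL hm (fst.comp snd)
      (comp_tL hm hI (fst.comp (snd.comp (snd.comp snd)))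
        (fst.comp (snd.comp (snd.comp (snd.comp snd)))))).to₂).of_eq
    fun a => (domL_eq_foldl (ls a) (A a)).symm

lemma comp_allowedB {n : α → ℕ} {ls : α → List (Lev K)} {A : α → List K} {p : α → Assign K}
    (hn : Computable n) (hls : Computable ls) (hA : Computable A) (hp : Computable p) :
    Computable fun a => allowedB (n a) (ls a) (A a) (p a) :=
  any_list (comp_choicesL hn (comp_domL hm hI hls hA))
    (and_bool (comp_agreeB (hn.comp fst) (hA.comp fst) snd (hp.comp fst))
      (comp_check hm hI (hls.comp fst) (hA.comp fst) snd)).to₂

lemma comp_colourB {n : α → ℕ} {ls : α → List (Lev K)} {g : α → K} {A : α → List K}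
    {p : α → Assign K} (hn : Computable n) (hls : Computable ls) (hg : Computable g)
    (hA : Computable A) (hp : Computable p) :
    Computable fun a => colourB (n a) (ls a) (g a) (A a) (p a) :=
  and_bool (comp_allowedB hm hI hn hls hA hp) (comp_properB hm hn hg hA hp)

omit hm hI in
lemma comp_fresh {X : α → List K} (hX : Computable X) : Computable fun a => fresh (X a) :=
  option_getD (find_list (comp_elemsL (Computable.succ.comp (list_length.comp hX)))
    (not_bool (comp_memB snd (hX.comp fst))).to₂) (const 1)

lemma comp_placeAll {n : α → ℕ} {G F : α → List K} {pats : α → List (Assign K)}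
    (hn : Computable n) (hG : Computable G) (hF : Computable F) (hp : Computable pats) :
    Computable fun a => placeAll (n a) (G a) (F a) (pats a) := by
  have hh : Computable fun x : α × (List K × Assign K) × Assign K =>
      fresh (prodL x.2.1.1 (prodL (G x.1) (invL (F x.1)))) :=
    comp_fresh (comp_prodL hm (fst.comp (fst.comp snd))
      (comp_prodL hm (hG.comp fst) (comp_invL hI (hF.comp fst))))
  exact foldl_list hp (const ([], []))
    ((list_append.comp (fst.comp (fst.comp snd))
        (map_list (hF.comp fst) (hm.comp (hh.comp fst) snd).to₂)).pair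
      (list_append.comp
        (map_list (hF.comp fst)
          ((hm.comp (hh.comp fst) snd).pair
            (map_list (range_list (hn.comp (fst.comp fst)))
              (comp_val (snd.comp (snd.comp (fst.comp fst))) (snd.comp fst) snd).to₂)).to₂)
        (snd.comp (fst.comp snd)))).to₂

lemma comp_stateAt {n : α → ℕ} (hn : Computable n) : Computable fun a => stateAt K (n a) := by
  have hk : Computable fun x : α × ℕ × (List K × List (Lev K)) => x.2.1 := fst.comp snd
  have hk1 : Computable fun x : α × ℕ × (List K × List (Lev K)) => x.2.1 + 1 :=
    Computable.succ.comp hk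
  have hG : Computable fun x : α × ℕ × (List K × List (Lev K)) => x.2.2.1 :=
    fst.comp (snd.comp snd)
  have hls : Computable fun x : α × ℕ × (List K × List (Lev K)) => x.2.2.2 :=
    snd.comp (snd.comp snd)
  have hg : Computable fun x : α × ℕ × (List K × List (Lev K)) => Denumerable.ofNat K x.2.1 :=
    (Computable.ofNat K).comp hk
  have hGe : Computable fun x : α × ℕ × (List K × List (Lev K)) =>
      edgeGap (Denumerable.ofNat K x.2.1) x.2.2.1 :=
    list_cons.comp hg (list_cons.comp (hI.comp hg) hG)
  have hpats : Computable fun x : α × ℕ × (List K × List (Lev K)) =>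
      patsOf x.2.1 (Denumerable.ofNat K x.2.1) x.2.2.2 :=
    filter_list (comp_choicesL hk1 (comp_elemsL hk1))
      (comp_colourB hm hI (hk.comp fst) (hls.comp fst) (hg.comp fst)
        ((comp_elemsL hk1).comp fst) snd).to₂
  have hpl : Computable fun x : α × ℕ × (List K × List (Lev K)) => placedOf x.2.1 x.2.2 :=
    comp_placeAll hm hI hk1 hGe (comp_elemsL hk1) hpats
  have hS : Computable fun x : α × ℕ × (List K × List (Lev K)) => suppOf x.2.1 x.2.2 :=
    list_cons.comp (const 1) (fst.comp hpl)
  have hP : Computable fun x : α × ℕ × (List K × List (Lev K)) => blockOf x.2.1 x.2.2 :=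
    option_getD (find_list (comp_choicesL hk1 hS)
      (and_bool (comp_colourB hm hI (hk.comp fst) (hls.comp fst) (hg.comp fst) (hS.comp fst) snd)
        (comp_agreeB (hk1.comp fst) ((fst.comp hpl).comp fst) snd
          ((snd.comp hpl).comp fst))).to₂) (const [])
  exact nat_rec hn (const ([1], []))
    ((comp_gapL hm hI hGe hS).pair
      (list_cons.comp ((hk.pair hg).pair (hGe.pair (hS.pair hP))) hls)).to₂

omit hm hI in
omit [Group K] [DecidableEq K] in
lemma comp_posBlock {n : α → ℕ} (hn : Computable n) : Computable fun a => posBlock K (n a) := by
  have hn1 : Computable fun a => n a + 1 := Computable.succ.comp hn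
  have inner : Computable fun y : (α × Bool) × K =>
      (List.range (n y.1.1 + 1)).map fun i => (y.2, i, y.1.2) :=
    map_list (range_list (hn1.comp (fst.comp fst)))
      ((snd.comp fst).pair (snd.pair (snd.comp (fst.comp fst)))).to₂
  exact flatMap_list (const [false, true])
    (flatMap_list (comp_elemsL (hn1.comp fst)) inner.to₂).to₂

omit hm hI in
omit [Group K] [DecidableEq K] in
lemma comp_posList {n : α → ℕ} (hn : Computable n) : Computable fun a => posList K (n a) :=
  flatMap_list (range_list (Computable.succ.comp hn)) (comp_posBlock snd).to₂

omit hm hI in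
omit [Group K] [DecidableEq K] in
lemma comp_pos {n : α → ℕ} (hn : Computable n) : Computable fun a => pos K (n a) :=
  getD_list (comp_posList hn) hn _

omit hm hI in
lemma comp_getBool {a : α → List Bool} {i : α → ℕ} (ha : Computable a) (hi : Computable i) :
    Computable fun x => (a x).getD (i x) false := getD_list ha hi false

omit hm hI in
omit [Group K] in
lemma comp_consistB {a : α → List Bool} (ha : Computable a) :
    Computable fun x => consistB K (a x) := by
  have hi : Computable fun y : (α × ℕ) × ℕ => pos K y.1.2 := comp_pos (snd.comp fst)
  have hj : Computable fun y : (α × ℕ) × ℕ => pos K y.2 := comp_pos snd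
  have hai : Computable fun y : (α × ℕ) × ℕ => (a y.1.1).getD y.1.2 false :=
    comp_getBool (ha.comp (fst.comp fst)) (snd.comp fst)
  have haj : Computable fun y : (α × ℕ) × ℕ => (a y.1.1).getD y.2 false :=
    comp_getBool (ha.comp (fst.comp fst)) snd
  exact all_list (range_list (list_length.comp ha))
    (all_list (range_list (list_length.comp (ha.comp fst)))
      (and_bool (or_bool (not_bool (eq_bool hi hj)) (eq_bool hai haj))
        (not_bool (and_bool (and_bool (and_bool (and_bool (and_bool
          (eq_bool (fst.comp hi) (fst.comp hj))
          (eq_bool (fst.comp (snd.comp hi)) (fst.comp (snd.comp hj))))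
          (not_bool (snd.comp (snd.comp hi)))) (snd.comp (snd.comp hj))) hai) haj))).to₂).to₂

omit hm hI in
omit [Group K] in
lemma comp_decA {a : α → List Bool} {v : α → K} {i : α → ℕ} (ha : Computable a)
    (hv : Computable v) (hi : Computable i) : Computable fun x => decA (a x) (v x) (i x) := by
  have key : ∀ b : Bool, Computable fun x => (List.range (a x).length).any fun j =>
      pos K j == (v x, i x, b) && (a x).getD j false := fun b =>
    any_list (range_list (list_length.comp ha))
      (and_bool (eq_bool (comp_pos snd) ((hv.comp fst).pair ((hi.comp fst).pair (const b))))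
        (comp_getBool (ha.comp fst) snd)).to₂
  exact Computable.cond (key false) (const 1) (Computable.cond (key true) (const 2) (const 0))

lemma comp_levelsB {a : α → List Bool} (ha : Computable a) :
    Computable fun x => levelsB K (a x) := by
  have hp : Computable fun y : α × ℕ => pattA K y.2 (a y.1) :=
    map_list (comp_elemsL snd) (snd.pair
      (map_list (range_list (snd.comp fst))
        (comp_decA ((ha.comp fst).comp (fst.comp fst)) (snd.comp fst) snd).to₂)).to₂
  exact all_list (range_list (list_length.comp ha))
    (or_bool (lt_bool (list_length.comp (ha.comp fst)) (list_length.comp (comp_posList snd)))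
      (comp_allowedB hm hI snd (snd.comp (comp_stateAt hm hI snd)) (comp_elemsL snd) hp)).to₂

omit hI in
lemma comp_shiftBad (gs : List K) :
    Computable fun it : List Bool × List (List Bool) => shiftBad gs it.1 it.2 := by
  have hb : Computable fun y : (List Bool × List (List Bool)) × ℕ => y.1.2.getD y.2 [] :=
    getD_list (snd.comp fst) snd []
  have hj : Computable fun z : (((List Bool × List (List Bool)) × ℕ) × ℕ) × ℕ => pos K z.1.2 :=
    comp_pos (snd.comp fst)
  exact any_list (range_list (const gs.length))
    (any_list (range_list (list_length.comp hb))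
      (any_list (range_list (list_length.comp (fst.comp (fst.comp fst))))
        (and_bool
          (eq_bool (comp_pos snd)
            ((hm.comp (getD_list (const gs) (snd.comp (fst.comp fst)) 1) (fst.comp hj)).pair
              ((fst.comp (snd.comp hj)).pair (snd.comp (snd.comp hj)))))
          (not_bool (eq_bool (comp_getBool (fst.comp (fst.comp (fst.comp fst))) snd)
            (comp_getBool (hb.comp (fst.comp fst)) (snd.comp fst))))).to₂).to₂).to₂

/-- The enumeration is computable. -/
theorem computable_badOf (gs : List K) : Computable (badOf gs) := by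
  have hf : Computable fun it : List Bool × List (List Bool) => forbidden gs it :=
    and_bool (eq_bool (list_length.comp snd) (const gs.length))
      (or_bool (not_bool (and_bool (comp_consistB fst) (comp_levelsB hm hI fst)))
        (comp_shiftBad hm gs))
  exact option_bind Computable.decode
    (Computable.cond (hf.comp snd) (option_some.comp snd) (const none)).to₂

end Vale.Agent.P193.Action
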