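import Mathlib
import Vale.Agent.P193.Defs
import Vale.Agent.P193.Action.Comp

/-!
# Module W2: every infinite group with decidable word problem has an effective free minimal action

The numbering: the `i`-th element is the `i`-th word that equals no earlier word.
-/

namespace Vale.Agent.P193.Action

open Computable CompList

namespace Numbering

variable {K : Type} [Group K] {n : ℕ} (g : Fin n → K) (d : List (Fin n × Bool) → Bool)

/-- The value of a word. -/
def value (w : List (Fin n × Bool)) : K := FreeGroup.lift g (FreeGroup.mk w)

/-- The word of a code. -/
def word (n c : ℕ) : List (Fin n × Bool) := (Encodable.decode c).getD []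

/-- Two words have the same value. -/
def sameB (u v : List (Fin n × Bool)) : Bool := d (u ++ FreeGroup.invRev v)

/-- No earlier word has the same value. -/
def freshB (c : ℕ) : Bool := (List.range c).all fun c' => !sameB d (word n c') (word n c)

/-- The number of fresh codes below `c`. -/
def below (c : ℕ) : ℕ := ((List.range c).filter (freshB d)).length

variable {g d} (hd : ∀ w, d w = true ↔ value g w = 1)

lemma value_append (u v : List (Fin n × Bool)) : value g (u ++ v) = value g u * value g v := by
  simp [value, ← FreeGroup.mul_mk, map_mul]

lemma value_invRev (v : List (Fin n × Bool)) : value g (FreeGroup.invRev v) = (value g v)⁻¹ := by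
  simp [value, ← FreeGroup.inv_mk]

include hd in
lemma sameB_iff (u v : List (Fin n × Bool)) : sameB d u v = true ↔ value g u = value g v := by
  rw [sameB, hd, value_append, value_invRev, mul_inv_eq_one]

lemma word_encode (w : List (Fin n × Bool)) : word n (Encodable.encode w) = w := by
  simp [word]

variable (hgen : Subgroup.closure (Set.range g) = ⊤)

include hgen in
lemma value_surjective (x : K) : ∃ c, value g (word n c) = x := by
  have hr : (FreeGroup.lift g).range = ⊤ := by rw [FreeGroup.range_lift_eq_closure, hgen]
  obtain ⟨y, hy⟩ := MonoidHom.range_eq_top.1 hr x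
  refine ⟨Encodable.encode y.toWord, ?_⟩
  rw [word_encode, value, FreeGroup.mk_toWord, hy]

include hd hgen in
lemma exists_fresh (x : K) : ∃ c, freshB d c = true ∧ value g (word n c) = x := by
  classical
  refine ⟨Nat.find (value_surjective hgen x), ?_, Nat.find_spec (value_surjective hgen x)⟩
  rw [freshB, List.all_eq_true]
  intro c hc
  rw [Bool.not_eq_true', ← Bool.not_eq_true, sameB_iff hd,
    Nat.find_spec (value_surjective hgen x)]
  exact Nat.find_min (value_surjective hgen x) (List.mem_range.1 hc)

include hd in
lemma fresh_unique {a b : ℕ} (ha : freshB d a = true) (hb : freshB d b = true)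
    (h : value g (word n a) = value g (word n b)) : a = b := by
  rcases lt_trichotomy a b with hlt | rfl | hlt
  · rw [freshB, List.all_eq_true] at hb
    have := hb a (List.mem_range.2 hlt)
    rw [(sameB_iff hd _ _).2 h] at this
    simp at this
  · rfl
  · rw [freshB, List.all_eq_true] at ha
    have := ha b (List.mem_range.2 hlt)
    rw [(sameB_iff hd _ _).2 h.symm] at this
    simp at this

lemma below_eq_count (c : ℕ) : below d c = Nat.count (fun c => freshB d c = true) c := by
  simp [below, Nat.count, List.countP_eq_length_filter]

variable [Infinite K]

include hd hgen in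
lemma fresh_infinite : {c : ℕ | freshB d c = true}.Infinite := by
  intro hfin
  refine Set.infinite_univ (α := K) ((hfin.image fun c => value g (word n c)).subset fun x _ => ?_)
  obtain ⟨c, h1, h2⟩ := exists_fresh hd hgen x
  exact ⟨c, h1, h2⟩

include hd hgen in
lemma exists_rep (i : ℕ) : ∃ c, (freshB d c && below d c == i) = true := by
  refine ⟨Nat.nth (fun c => freshB d c = true) i, ?_⟩
  rw [Bool.and_eq_true, beq_iff_eq, below_eq_count]
  exact ⟨Nat.nth_mem_of_infinite (fresh_infinite hd hgen) i,
    Nat.count_nth_of_infinite (fresh_infinite hd hgen) i⟩

include hd hgen in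
omit [Infinite K] in
lemma exists_code (w : List (Fin n × Bool)) : ∃ c, sameB d (word n c) w = true := by
  obtain ⟨c, hc⟩ := value_surjective hgen (value g w)
  exact ⟨c, (sameB_iff hd _ _).2 hc⟩

lemma computable_find {α : Type*} [Primcodable α] {p : α → ℕ → Bool} (hp : Computable₂ p)
    (h : ∀ a, ∃ m, p a m = true) : Computable fun a => Nat.find (h a) := by
  refine (Partrec.rfind hp.partrec₂).of_eq_tot fun a => ?_
  simp only [Nat.mem_rfind]
  exact ⟨by simpa using Nat.find_spec (h a),
    fun hm => by simpa using Nat.find_min (h a) hm⟩

variable (hc : Computable d)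

omit [Group K] [Infinite K] in
lemma comp_word {α : Type} [Primcodable α] {c : α → ℕ} (h : Computable c) :
    Computable fun a => word n (c a) :=
  option_getD (Computable.decode.comp h) (const [])

omit [Group K] [Infinite K] in
lemma comp_invRev {α : Type} [Primcodable α] {v : α → List (Fin n × Bool)} (h : Computable v) :
    Computable fun a => FreeGroup.invRev (v a) :=
  list_reverse.comp (map_list h ((fst.comp snd).pair (not_bool (snd.comp snd))).to₂)

include hc

omit [Group K] [Infinite K] in
lemma comp_sameB {α : Type} [Primcodable α] {u v : α → List (Fin n × Bool)} (hu : Computable u)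
    (hv : Computable v) : Computable fun a => sameB d (u a) (v a) :=
  hc.comp (list_append.comp hu (comp_invRev hv))

omit [Group K] [Infinite K] in
lemma comp_freshB {α : Type} [Primcodable α] {c : α → ℕ} (h : Computable c) :
    Computable fun a => freshB d (c a) :=
  all_list (range_list h)
    (not_bool (comp_sameB hc (comp_word snd) (comp_word (h.comp fst)))).to₂

omit [Group K] [Infinite K] in
lemma comp_below {α : Type} [Primcodable α] {c : α → ℕ} (h : Computable c) :
    Computable fun a => below d (c a) :=
  list_length.comp (filter_list (range_list h) (comp_freshB hc snd).to₂)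

include hd hgen

/-- Numbering, with computable multiplication and inverse. -/
theorem exists_numbering :
    ∃ (e : K ≃ ℕ) (F : ℕ → ℕ → ℕ) (I : ℕ → ℕ), Computable₂ F ∧ Computable I ∧
      (∀ x y, e (x * y) = F (e x) (e y)) ∧ ∀ x, e x⁻¹ = I (e x) := by
  classical
  let rep : ℕ → ℕ := fun i => Nat.find (exists_rep hd hgen i)
  let index : List (Fin n × Bool) → ℕ := fun w => below d (Nat.find (exists_code hd hgen w))
  let toNat : K → ℕ := fun x => below d (exists_fresh hd hgen x).choose
  have hrep : ∀ i, freshB d (rep i) = true ∧ below d (rep i) = i := fun i => by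
    simpa [rep] using Nat.find_spec (exists_rep hd hgen i)
  have hindex : ∀ w, index w = toNat (value g w) := fun w => by
    have h1 := (exists_fresh hd hgen (value g w)).choose_spec
    have h2 := (sameB_iff hd _ _).1 (Nat.find_spec (exists_code hd hgen w))
    refine congrArg (below d) (fresh_unique hd ?_ h1.1 (h2.trans h1.2.symm))
    rw [freshB, List.all_eq_true]
    intro c hcm
    rw [Bool.not_eq_true', ← Bool.not_eq_true, sameB_iff hd, h2, ← sameB_iff hd]
    exact Nat.find_min (exists_code hd hgen w) (List.mem_range.1 hcm)
  have hleft : ∀ i, toNat (value g (word n (rep i))) = i := fun i => by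
    have h1 := (exists_fresh hd hgen (value g (word n (rep i)))).choose_spec
    show below d _ = i
    rw [fresh_unique hd h1.1 (hrep i).1 h1.2, (hrep i).2]
  have hright : ∀ x, value g (word n (rep (toNat x))) = x := fun x => by
    have h1 := (exists_fresh hd hgen x).choose_spec
    have h2 := (hrep (toNat x)).2
    have h3 : rep (toNat x) = (exists_fresh hd hgen x).choose := by
      rw [below_eq_count] at h2
      have h4 : Nat.count (fun c => freshB d c = true) (rep (toNat x)) =
          Nat.count (fun c => freshB d c = true) (exists_fresh hd hgen x).choose :=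
        h2.trans (below_eq_count _)
      exact Nat.count_injective (hrep _).1 h1.1 h4
    rw [h3, h1.2]
  have hci : Computable index :=
    comp_below hc (computable_find (comp_sameB hc (comp_word snd) fst).to₂ (exists_code hd hgen))
  have hcr : Computable rep := computable_find
    (and_bool (comp_freshB hc snd) (eq_bool (comp_below hc snd) fst)).to₂ (exists_rep hd hgen)
  refine ⟨⟨toNat, fun i => value g (word n (rep i)), hright, hleft⟩,
    fun i j => index (word n (rep i) ++ word n (rep j)),
    fun i => index (FreeGroup.invRev (word n (rep i))), ?_, ?_, fun x y => ?_, fun x => ?_⟩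
  · exact hci.comp (list_append.comp (comp_word (hcr.comp fst)) (comp_word (hcr.comp snd)))
  · exact hci.comp (comp_invRev (comp_word hcr))
  · show toNat (x * y) = index (word n (rep (toNat x)) ++ word n (rep (toNat y)))
    rw [hindex, value_append, hright, hright]
  · show toNat x⁻¹ = index (FreeGroup.invRev (word n (rep (toNat x))))
    rw [hindex, value_invRev, hright]

end Numbering

/-- Module W2. -/
theorem exists_effAction (K : Type) [Group K] [Infinite K] (h : HasDecidableWP K) {k : ℕ}
    (g : Fin k → K) : Nonempty (EffAction K g) := by
  obtain ⟨n, gens, hgen, d, hc, hd⟩ := h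
  obtain ⟨e, F, I, hF, hI, hmul, hinv⟩ := Numbering.exists_numbering (g := gens) hd hgen hc
  let : Denumerable K := Denumerable.mk' e
  let : DecidableEq K := e.decidableEq
  have henc : ∀ x : K, Encodable.encode x = e x := fun _ => rfl
  have hm : Computable₂ fun a b : K => a * b :=
    Computable.encode_iff.1 ((hF.comp (Computable.encode.comp fst)
      (Computable.encode.comp snd)).of_eq fun p => by rw [henc, henc, henc, hmul])
  have hi : Computable fun a : K => a⁻¹ :=
    Computable.encode_iff.1 ((hI.comp Computable.encode).of_eq fun x => by rw [henc, henc, hinv])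
  exact ⟨effAction g (computable_badOf hm hi (List.ofFn g))⟩

end Vale.Agent.P193.Action
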